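import Vale.Agent.LT.MatCalc

/-!
Absolute continuity on an interval for complex functions and matrix families.
-/

namespace Vale.Agent.LT

open MeasureTheory Set Filter
open scoped ComplexConjugate Topology

theorem ac_of_dist_le {X Y : Type*} [PseudoMetricSpace X] [PseudoMetricSpace Y] {F : ℝ → X}
    {V : ℝ → Y} {a b C : ℝ} (hV : AbsolutelyContinuousOnInterval V a b)
    (h : ∀ x ∈ uIcc a b, ∀ y ∈ uIcc a b, dist (F x) (F y) ≤ C * dist (V x) (V y)) :
    AbsolutelyContinuousOnInterval F a b := by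
  rw [absolutelyContinuousOnInterval_iff] at hV ⊢
  intro e he
  obtain ⟨d, hd, hd'⟩ := hV (e / (|C| + 1)) (by positivity)
  refine ⟨d, hd, fun E hE hlen => ?_⟩
  calc _ ≤ ∑ i ∈ Finset.range E.1, (|C| + 1) * dist (V (E.2 i).1) (V (E.2 i).2) :=
        Finset.sum_le_sum fun i hi => (h _ (hE.1 i hi).1 _ (hE.1 i hi).2).trans
          (mul_le_mul_of_nonneg_right (by linarith [le_abs_self C]) dist_nonneg)
    _ = (|C| + 1) * ∑ i ∈ Finset.range E.1, dist (V (E.2 i).1) (V (E.2 i).2) :=
        (Finset.mul_sum _ _ _).symm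
    _ < (|C| + 1) * (e / (|C| + 1)) :=
        mul_lt_mul_of_pos_left (hd' E hE hlen) (by positivity)
    _ = e := by field_simp

theorem ac_const {X : Type*} [PseudoMetricSpace X] (c : X) (a b : ℝ) : AbsolutelyContinuousOnInterval (fun _ => c) a b :=
  (LipschitzWith.const c).lipschitzOnWith.absolutelyContinuousOnInterval

theorem ac_sum {ι : Type*} {f : ι → ℝ → ℂ} {a b : ℝ} (s : Finset ι)
    (h : ∀ i ∈ s, AbsolutelyContinuousOnInterval (f i) a b) : AbsolutelyContinuousOnInterval (fun x => ∑ i ∈ s, f i x) a b := by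
  classical
  induction s using Finset.induction_on with
  | empty => simpa using ac_const (0 : ℂ) a b
  | insert i s hi ih =>
    simp only [Finset.sum_insert hi]
    exact (h i (Finset.mem_insert_self _ _)).fun_add (ih fun j hj => h j (Finset.mem_insert_of_mem hj))

theorem ac_prod {ι : Type*} {f : ι → ℝ → ℂ} {a b : ℝ} (s : Finset ι)
    (h : ∀ i ∈ s, AbsolutelyContinuousOnInterval (f i) a b) : AbsolutelyContinuousOnInterval (fun x => ∏ i ∈ s, f i x) a b := by
  classical
  induction s using Finset.induction_on with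
  | empty => simpa using ac_const (1 : ℂ) a b
  | insert i s hi ih =>
    simp only [Finset.prod_insert hi]
    exact (h i (Finset.mem_insert_self _ _)).fun_smul
      (ih fun j hj => h j (Finset.mem_insert_of_mem hj))

theorem ac_mul {f g : ℝ → ℂ} {a b : ℝ} (hf : AbsolutelyContinuousOnInterval f a b) (hg : AbsolutelyContinuousOnInterval g a b) :
    AbsolutelyContinuousOnInterval (fun x => f x * g x) a b := hf.fun_smul hg

theorem ac_conj {f : ℝ → ℂ} {a b : ℝ} (hf : AbsolutelyContinuousOnInterval f a b) : AbsolutelyContinuousOnInterval (fun x => conj (f x)) a b :=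
  ac_of_dist_le (C := 1) hf fun x _ y _ => by rw [one_mul, Complex.dist_conj_conj]

theorem ac_re {f : ℝ → ℂ} {a b : ℝ} (hf : AbsolutelyContinuousOnInterval f a b) : AbsolutelyContinuousOnInterval (fun x => (f x).re) a b :=
  ac_of_dist_le (C := 1) hf fun x _ y _ => by
    rw [one_mul, dist_eq_norm, dist_eq_norm, ← Complex.sub_re]
    exact Complex.abs_re_le_norm _

theorem ac_inv {f : ℝ → ℂ} {a b : ℝ} (hf : AbsolutelyContinuousOnInterval f a b) (h0 : ∀ x ∈ uIcc a b, f x ≠ 0) :
    AbsolutelyContinuousOnInterval (fun x => (f x)⁻¹) a b := by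
  obtain ⟨z, hz, hmin⟩ := isCompact_uIcc.exists_isMinOn nonempty_uIcc hf.continuousOn.norm
  have hc : 0 < ‖f z‖ := norm_pos_iff.2 (h0 z hz)
  refine ac_of_dist_le (C := 1 / ‖f z‖ ^ 2) hf fun x hx y hy => ?_
  have e : (f x)⁻¹ - (f y)⁻¹ = (f y - f x) * ((f x)⁻¹ * (f y)⁻¹) := by
    field_simp [h0 x hx, h0 y hy]
  rw [dist_eq_norm, dist_eq_norm, e, norm_mul, norm_mul, norm_inv, norm_inv, norm_sub_rev,
    mul_comm (1 / _), sq, ← mul_inv, one_div]
  exact mul_le_mul_of_nonneg_left (inv_anti₀ (mul_pos hc hc)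
    (mul_le_mul (hmin hx) (hmin hy) hc.le (norm_nonneg _))) (norm_nonneg _)

theorem ac_primitive {g U : ℝ → ℂ} {a b : ℝ} (hg : ∀ x y, IntervalIntegrable g volume x y)
    (hU : ∀ x y, ∫ t in x..y, g t = U y - U x) : AbsolutelyContinuousOnInterval U a b := by
  have hn : ∀ x y, IntervalIntegrable (fun t => ‖g t‖) volume x y := fun x y => (hg x y).norm
  refine ac_of_dist_le (C := 1) ((hn a b).absolutelyContinuousOnInterval_intervalIntegral
    (c := a) left_mem_uIcc) fun x _ y _ => ?_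
  rw [one_mul, dist_eq_norm, Real.dist_eq, ← norm_sub_rev (U y), ← hU,
    intervalIntegral.integral_interval_sub_left (hn a x) (hn a y), intervalIntegral.integral_symm x y,
    abs_neg]
  exact intervalIntegral.norm_integral_le_abs_integral_norm

variable {l m n : Type*} [Fintype m]

/-- Entrywise absolute continuity. -/
def MatAC (f : ℝ → Matrix l n ℂ) (a b : ℝ) : Prop :=
  ∀ i j, AbsolutelyContinuousOnInterval (fun x => f x i j) a b

theorem MatAC.matMul {f : ℝ → Matrix l m ℂ} {g : ℝ → Matrix m n ℂ} {a b : ℝ}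
    (hf : MatAC f a b) (hg : MatAC g a b) : MatAC (fun x => f x * g x) a b := by
  intro i j
  simp only [Matrix.mul_apply]
  exact ac_sum _ fun k _ => ac_mul (hf i k) (hg k j)

theorem MatAC.conjTranspose {f : ℝ → Matrix l n ℂ} {a b : ℝ} (hf : MatAC f a b) :
    MatAC (fun x => (f x).conjTranspose) a b := fun i j => ac_conj (hf j i)

theorem MatAC.add {f g : ℝ → Matrix l n ℂ} {a b : ℝ} (hf : MatAC f a b) (hg : MatAC g a b) :
    MatAC (fun x => f x + g x) a b := fun i j => (hf i j).fun_add (hg i j)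

theorem MatAC.smul {f : ℝ → Matrix l n ℂ} {a b : ℝ} (hf : MatAC f a b) (c : ℂ) :
    MatAC (fun x => c • f x) a b := fun i j => (hf i j).const_smul c

theorem MatAC.trace {f : ℝ → Matrix m m ℂ} {a b : ℝ} (hf : MatAC f a b) :
    AbsolutelyContinuousOnInterval (fun x => (f x).trace) a b :=
  ac_sum _ fun i _ => hf i i

theorem ac_det {ι : Type*} [Fintype ι] [DecidableEq ι] {M : ℝ → Matrix ι ι ℂ} {a b : ℝ}
    (hM : MatAC M a b) : AbsolutelyContinuousOnInterval (fun x => (M x).det) a b := by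
  simp only [Matrix.det_apply']
  exact ac_sum _ fun σ _ => ac_mul (ac_const _ a b) (ac_prod _ fun i _ => hM _ _)

theorem norm_exzD_le [DecidableEq m] (z : ℂ) {H D : Matrix m m ℂ} {R C : ℝ} (hR : 0 ≤ R)
    (hC : 0 ≤ C) (hH : ∀ i j, ‖H i j‖ ≤ R) (hD : ∀ i j, ‖D i j‖ ≤ C * R) (i j : m) :
    ‖exzD z H D i j‖ ≤
      ∑' k : ℕ, C * ((‖z‖ * (2 * (Fintype.card m * R))) ^ k / k.factorial) := by
  refine tsum_of_norm_bounded ((Real.summable_pow_div_factorial _).mul_left C).hasSum fun k => ?_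
  rw [norm_mul, norm_div, norm_pow, RCLike.norm_natCast, mul_pow (‖z‖),
    show C * (‖z‖ ^ k * (2 * ((Fintype.card m : ℝ) * R)) ^ k / k.factorial) =
      ‖z‖ ^ k / k.factorial * (C * (2 * ((Fintype.card m : ℝ) * R)) ^ k) by ring]
  gcongr
  exact norm_powD_entry_le hR hC hH hD k i j

end Vale.Agent.LT
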