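import Vale.Agent.LT.Bound

/-!
The bound for `1 ≤ γ` obtained from `γ = 1` by integrating over shifts.
-/

namespace Vale.Agent.LT

open Matrix Finset MeasureTheory
open scoped ComplexConjugate ComplexOrder
open Vale.Agent.P371 (MemH1)

variable {m N : ℕ}

theorem beta_real {a b w : ℝ} (ha : 0 < a) (hb : 0 < b) (hw : 0 < w) :
    ∫ t in (0:ℝ)..w, t ^ (a - 1) * (w - t) ^ (b - 1) =
      w ^ (a + b - 1) * (Real.Gamma a * Real.Gamma b / Real.Gamma (a + b)) := by
  apply Complex.ofReal_injective
  rw [← intervalIntegral.integral_ofReal]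
  have h := Complex.betaIntegral_scaled (a : ℂ) (b : ℂ) hw
  rw [Complex.betaIntegral_eq_Gamma_mul_div _ _ (by simpa using ha) (by simpa using hb),
    ← Complex.ofReal_add, Complex.Gamma_ofReal, Complex.Gamma_ofReal, Complex.Gamma_ofReal,
    show (↑(a + b) : ℂ) - 1 = ↑(a + b - 1) by push_cast; ring, ← Complex.ofReal_cpow hw.le] at h
  rw [Complex.ofReal_mul, Complex.ofReal_div, Complex.ofReal_mul, ← h]
  refine intervalIntegral.integral_congr fun t ht => ?_
  rw [Set.uIcc_of_le hw.le] at ht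
  simp only [Complex.ofReal_mul, Complex.ofReal_cpow ht.1, Complex.ofReal_cpow (sub_nonneg.2 ht.2),
    Complex.ofReal_sub, Complex.ofReal_one]

/-- `∫₀^∞ t^(a-1) (w-t)₊^e` as an extended real. -/
theorem lintegral_beta {a e w : ℝ} (ha : 0 < a) (he : 0 < e) (hw : 0 ≤ w) :
    ∫⁻ t in Set.Ioi (0:ℝ), ENNReal.ofReal (t ^ (a - 1) * max (w - t) 0 ^ e) =
      ENNReal.ofReal (w ^ (a + e) * (Real.Gamma a * Real.Gamma (e + 1) / Real.Gamma (a + e + 1))) := by
  have hint : IntegrableOn (fun t => t ^ (a - 1) * max (w - t) 0 ^ e) (Set.Ioc 0 w) :=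
    ((intervalIntegral.intervalIntegrable_rpow' (by linarith)).mul_continuousOn
      (Continuous.rpow_const ((continuous_const.sub continuous_id).max continuous_const)
        fun _ => Or.inr he.le).continuousOn).1
  have hpos : ∀ t ∈ Set.Ioi (0:ℝ), 0 ≤ t ^ (a - 1) * max (w - t) 0 ^ e := fun t ht =>
    mul_nonneg (Real.rpow_nonneg (le_of_lt ht) _) (Real.rpow_nonneg (le_max_right _ _) _)
  have hzero : ∀ t ∈ Set.Ioi (0:ℝ) \ Set.Ioc 0 w, t ^ (a - 1) * max (w - t) 0 ^ e = 0 := by
    rintro t ⟨ht, htw⟩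
    have : w < t := by simpa [Set.mem_Ioi.1 ht] using htw
    rw [max_eq_right (by linarith), Real.zero_rpow he.ne', mul_zero]
  have hint' : IntegrableOn (fun t => t ^ (a - 1) * max (w - t) 0 ^ e) (Set.Ioi 0) :=
    hint.of_forall_sdiff_eq_zero measurableSet_Ioi hzero
  rw [← ofReal_integral_eq_lintegral_ofReal hint'
    (ae_restrict_of_forall_mem measurableSet_Ioi hpos)]
  congr 1
  rw [setIntegral_eq_of_subset_of_forall_sdiff_eq_zero measurableSet_Ioi
    Set.Ioc_subset_Ioi_self hzero, ← intervalIntegral.integral_of_le hw]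
  rcases eq_or_lt_of_le hw with rfl | hw'
  · simp [Real.zero_rpow (by linarith : a + e ≠ 0)]
  · rw [show a + e = a + (e + 1) - 1 by ring, show a + (e + 1) - 1 + 1 = a + (e + 1) by ring,
      ← beta_real ha (by linarith : 0 < e + 1) hw']
    refine intervalIntegral.integral_congr fun t ht => ?_
    rw [Set.uIcc_of_le hw] at ht
    simp only [add_sub_cancel_right, max_eq_left (sub_nonneg.2 ht.2)]

theorem sum_rpow_gamma_bound {γ : ℝ} (hγ : 1 < γ) {W : ℝ → Matrix (Fin m) (Fin m) ℂ}
    (hW : IsPotentialPow (γ + 1 / 2) W) {μ : Fin N → ℝ} {ψ : Fin N → Fin m → ℝ → ℂ}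
    (heig : ∀ i, μ i < 0 ∧ IsEigenfunction W (μ i) (ψ i)) (ho : IsOrthonormal ψ) :
    ∑ i, |μ i| ^ γ ≤ 2 / √3 * (Real.Gamma (γ + 1) / (2 * √Real.pi * Real.Gamma (γ + 3 / 2))) *
      ∫ x, trPow (γ + 1 / 2) (W x) := by
  classical
  choose dψ hψ heq using fun i => (heig i).2
  have hp1 : (1:ℝ) ≤ γ + 1 / 2 := by linarith
  set Q : Fin N → ℝ → ℝ := fun i x => (star (fun c => ψ i c x) ⬝ᵥ W x *ᵥ fun c => ψ i c x).re
    with hQdef
  set F : Fin N → ℝ → ℝ := fun i x => ∑ c, ‖ψ i c x‖ ^ 2 with hFdef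
  set D : Fin N → ℝ → ℝ := fun i x => ∑ c, ‖dψ i c x‖ ^ 2 with hDdef
  have hQi : ∀ i, Integrable (Q i) := fun i => by
    simpa [hQdef] using (integrable_form hp1 hW (hψ i) (hψ i)).re
  have hQm : ∀ i, Measurable (Q i) := fun i => by
    simp only [hQdef, form_eq]
    exact Complex.measurable_re.comp (Finset.measurable_sum _ fun a _ => Finset.measurable_sum _
      fun b _ => ((Complex.continuous_conj.comp (hψ i a).continuous).measurable.mul (hW.1 a b)).mul
        (hψ i b).continuous.measurable)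
  have hFi : ∀ i, Integrable (F i) := fun i =>
    integrable_finsetSum _ fun c _ => (hψ i c).integrable_normSq
  have hFc : ∀ i, Continuous (F i) := fun i =>
    continuous_finsetSum _ fun c _ => (hψ i c).continuous.norm.pow 2
  have hF1 : ∀ i, ∫ x, F i x = 1 := fun i => by
    apply Complex.ofReal_injective
    rw [← integral_complex_ofReal, Complex.ofReal_one]
    simpa [hFdef, Complex.conj_mul'] using ho i i
  have hid : ∀ i, |μ i| = (∫ x, Q i x) - ∫ x, D i x := by
    intro i
    have e := congrArg Complex.re (heq i (ψ i) (dψ i) (hψ i))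
    have h1 : (∫ x, ∑ c, conj (dψ i c x) * dψ i c x) = ((∫ x, D i x : ℝ) : ℂ) := by
      rw [← integral_complex_ofReal]
      simp [hDdef, Complex.conj_mul']
    rw [ho i i, if_pos rfl, mul_one, Complex.sub_re, h1, Complex.ofReal_re, Complex.ofReal_re] at e
    have h2 := integral_re (integrable_form hp1 hW (hψ i) (hψ i))
    simp only [RCLike.re_to_complex] at h2
    rw [abs_of_neg (heig i).1]
    simp only [hQdef]
    linarith
  set A : (J : Finset (Fin N)) → ℝ → Matrix (Fin m) (Fin J.card) ℂ :=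
    fun J => fam fun k => ψ (J.equivFin.symm k) with hAdef
  set C : Finset (Fin N) → ℝ → ℝ := fun J x =>
    (((A J x)ᴴ * A J x * ((A J x)ᴴ * A J x) * ((A J x)ᴴ * A J x)).trace).re with hCdef
  set h : Finset (Fin N) → ℝ → ℝ → ℝ := fun J t x =>
    (∑ i ∈ J, Q i x) - t * (∑ i ∈ J, F i x) - Real.pi ^ 2 / 4 * C J x with hhdef
  have hk : ∀ J : Finset (Fin N), Integrable (C J) ∧
      Real.pi ^ 2 / 4 * ∫ x, C J x ≤ ∑ i ∈ J, ∫ x, D i x := by
    intro J
    have ho' : IsOrthonormal fun k => ψ (J.equivFin.symm k) := fun a b => by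
      simp [ho _ _, Subtype.val_inj]
    obtain ⟨h1, h2⟩ := kinetic (ψ := fun k => ψ (J.equivFin.symm k))
      (dψ := fun k => dψ (J.equivFin.symm k)) (fun k => hψ _) ho'
    refine ⟨h1, h2.trans (le_of_eq ?_)⟩
    rw [← Finset.sum_coe_sort J, ← Equiv.sum_comp J.equivFin.symm, ← integral_finsetSum]
    · simp [re_trace_gram, fam, hDdef, Complex.normSq_eq_norm_sq]
    · exact fun k _ => integrable_finsetSum _ fun c _ => (hψ _ c).integrable_deriv_normSq
  have hhi : ∀ J t, Integrable (h J t) := fun J t =>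
    ((integrable_finsetSum _ fun i _ => hQi i).sub
      ((integrable_finsetSum _ fun i _ => hFi i).const_mul t)).sub ((hk J).1.const_mul _)
  have hlow : ∀ J t, ∑ i ∈ J, (|μ i| - t) ≤ ∫ x, h J t x := by
    intro J t
    have a1 : Integrable fun x => ∑ i ∈ J, Q i x := integrable_finsetSum _ fun i _ => hQi i
    have a2 : Integrable fun x => ∑ i ∈ J, F i x := integrable_finsetSum _ fun i _ => hFi i
    simp only [hhdef]
    rw [integral_sub (f := fun x => (∑ i ∈ J, Q i x) - t * ∑ i ∈ J, F i x)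
      (a1.sub (a2.const_mul t)) ((hk J).1.const_mul _), integral_sub a1 (a2.const_mul t),
      integral_const_mul, integral_const_mul, integral_finsetSum _ fun i _ => hQi i,
      integral_finsetSum _ fun i _ => hFi i, Finset.sum_sub_distrib]
    simp only [hid, hF1, Finset.sum_sub_distrib, Finset.sum_const, nsmul_eq_mul, mul_one]
    linarith [(hk J).2, mul_comm t (J.card : ℝ)]
  set J₀ : ℝ → Finset (Fin N) := fun t => univ.filter fun i => t < |μ i| with hJdef
  set k : ℝ → ℝ → ℝ := fun t x => max (h (J₀ t) t x) 0 with hkdef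
  have hkm : Measurable fun z : ℝ × ℝ => k z.1 z.2 := by
    have e : (fun z : ℝ × ℝ => h (J₀ z.1) z.1 z.2) =
        fun z => ∑ J : Finset (Fin N), if J₀ z.1 = J then h J z.1 z.2 else 0 := by
      funext z; simp
    refine Measurable.max ?_ measurable_const
    rw [e]
    refine Finset.measurable_sum _ fun J _ => Measurable.ite ?_ ?_ measurable_const
    · have : {z : ℝ × ℝ | J₀ z.1 = J} = ⋂ i, {z | (z.1 < |μ i|) ↔ i ∈ J} := by
        ext z; simp [hJdef, Finset.ext_iff]
      rw [this]
      refine MeasurableSet.iInter fun i => ?_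
      by_cases hi : i ∈ J
      · simp only [hi, iff_true]
        exact measurableSet_lt measurable_fst measurable_const
      · simp only [hi, iff_false, not_lt]
        exact measurableSet_le measurable_const measurable_fst
    · have hC : Continuous (C J) := by
        have hc := gram_entry_continuous (U := A J) fun c l => (hψ _ c).continuous
        simp only [hCdef, Matrix.trace, Matrix.diag, Matrix.mul_apply (M := _ * _)]
        exact Complex.continuous_re.comp (continuous_finsetSum _ fun i _ =>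
          continuous_finsetSum _ fun l _ => (continuous_finsetSum _ fun r _ =>
            (hc i r).mul (hc r l)).mul (hc l i))
      exact (((Finset.measurable_sum _ fun i _ => hQm i).comp measurable_snd).sub
        (measurable_fst.mul ((Finset.measurable_sum _ fun i _ => (hFc i).measurable).comp
          measurable_snd))).sub ((hC.measurable.comp measurable_snd).const_mul _)
  have hk0 : ∀ t x, 0 ≤ k t x := fun t x => le_max_right _ _
  have hleft : ∀ t, ∑ i, max (|μ i| - t) 0 ≤ ∫ x, k t x := by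
    intro t
    refine le_trans ?_ ((hlow (J₀ t) t).trans (integral_mono (hhi _ t) (hhi _ t).pos_part
      fun x => le_max_left _ _))
    rw [hJdef, Finset.sum_filter]
    refine le_of_eq (Finset.sum_congr rfl fun i _ => ?_)
    split_ifs with hi
    · exact max_eq_left (sub_nonneg.2 hi.le)
    · exact max_eq_right (by linarith)
  set c : ℝ := 4 / (3 * √3 * Real.pi) with hc
  have hinner : ∀ x, ∫⁻ t in Set.Ioi (0:ℝ), ENNReal.ofReal (t ^ (γ - 2) * k t x) ≤
      ENNReal.ofReal (c * (Real.Gamma (γ - 1) * Real.Gamma (5 / 2) / Real.Gamma (γ + 3 / 2)) *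
        trPow (γ + 1 / 2) (W x)) := by
    intro x
    obtain ⟨V, w, hV, hV', eW, hw, hp⟩ := exists_spectral (hW.2.1 x)
    have hc0 : 0 ≤ c := by positivity
    calc ∫⁻ t in Set.Ioi (0:ℝ), ENNReal.ofReal (t ^ (γ - 2) * k t x)
        ≤ ∫⁻ t in Set.Ioi (0:ℝ), ∑ a, ENNReal.ofReal c *
            ENNReal.ofReal (t ^ (γ - 1 - 1) * max (w a - t) 0 ^ (3 / 2 : ℝ)) := by
          refine setLIntegral_mono (Finset.measurable_sum _ fun a _ => by fun_prop) fun t ht => ?_
          have ht0 : (0:ℝ) ≤ t ^ (γ - 2) := Real.rpow_nonneg (le_of_lt ht) _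
          simp only [← ENNReal.ofReal_mul hc0]
          rw [← ENNReal.ofReal_sum_of_nonneg (fun a _ => mul_nonneg hc0 (mul_nonneg
            (Real.rpow_nonneg (le_of_lt ht) _) (Real.rpow_nonneg (le_max_right _ _) _)))]
          refine ENNReal.ofReal_le_ofReal ?_
          have hy := matrix_young_shift hV hV' eW
            (posSemidef_self_mul_conjTranspose (A (J₀ t) x)) t
          rw [re_trace_mul_gram, trace_cube_swap, Matrix.trace_mul_comm, re_trace_gram] at hy
          have e1 : ∑ l : Fin (J₀ t).card, (star (fun c => A (J₀ t) x c l) ⬝ᵥ W x *ᵥ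
              fun c => A (J₀ t) x c l).re = ∑ i ∈ J₀ t, Q i x := by
            rw [← Finset.sum_coe_sort (J₀ t), ← Equiv.sum_comp (J₀ t).equivFin.symm]
            rfl
          have e2 : ∑ l : Fin (J₀ t).card, ∑ c, Complex.normSq (A (J₀ t) x c l) =
              ∑ i ∈ J₀ t, F i x := by
            rw [← Finset.sum_coe_sort (J₀ t), ← Equiv.sum_comp (J₀ t).equivFin.symm]
            simp [hAdef, fam, hFdef, Complex.normSq_eq_norm_sq]
          rw [e1, e2] at hy
          have hb : k t x ≤ c * ∑ a, max (w a - t) 0 ^ (3 / 2 : ℝ) := by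
            refine max_le ?_ (mul_nonneg hc0 (Finset.sum_nonneg fun a _ =>
              Real.rpow_nonneg (le_max_right _ _) _))
            simp only [hhdef, hCdef, hc]
            linarith
          refine (mul_le_mul_of_nonneg_left hb ht0).trans (le_of_eq ?_)
          rw [Finset.mul_sum, Finset.mul_sum, show γ - 1 - 1 = γ - 2 by ring]
          exact Finset.sum_congr rfl fun a _ => by ring
      _ = _ := by
          rw [lintegral_finsetSum _ fun a _ => by fun_prop]
          simp only [lintegral_const_mul' _ _ ENNReal.ofReal_ne_top,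
            lintegral_beta (sub_pos.2 hγ) (show (0:ℝ) < 3 / 2 by norm_num) (hw _)]
          simp only [← ENNReal.ofReal_mul hc0]
          rw [← ENNReal.ofReal_sum_of_nonneg fun a _ => mul_nonneg hc0 (mul_nonneg
            (Real.rpow_nonneg (hw a) _) (div_nonneg (mul_nonneg (Real.Gamma_nonneg_of_nonneg
              (by linarith)) (Real.Gamma_nonneg_of_nonneg (by norm_num)))
              (Real.Gamma_nonneg_of_nonneg (by linarith)))), hp, Finset.mul_sum]
          congr 1
          refine Finset.sum_congr rfl fun a _ => ?_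
          rw [show γ - 1 + 3 / 2 = γ + 1 / 2 by ring, show γ + 1 / 2 + 1 = γ + 3 / 2 by ring,
            show (3:ℝ) / 2 + 1 = 5 / 2 by norm_num]
          ring
  have hg : 0 < Real.Gamma (γ - 1) := Real.Gamma_pos_of_pos (by linarith)
  set K : ℝ := Real.Gamma (γ - 1) * Real.Gamma 2 / Real.Gamma (γ + 1) with hK
  set K' : ℝ := c * (Real.Gamma (γ - 1) * Real.Gamma (5 / 2) / Real.Gamma (γ + 3 / 2)) with hK'
  have main : ENNReal.ofReal (K * ∑ i, |μ i| ^ γ) ≤
      ENNReal.ofReal (K' * ∫ x, trPow (γ + 1 / 2) (W x)) := by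
    calc ENNReal.ofReal (K * ∑ i, |μ i| ^ γ)
        = ∫⁻ t in Set.Ioi (0:ℝ), ∑ i, ENNReal.ofReal (t ^ (γ - 1 - 1) *
            max (|μ i| - t) 0 ^ (1 : ℝ)) := by
          rw [lintegral_finsetSum _ fun a _ => by fun_prop]
          simp only [lintegral_beta (sub_pos.2 hγ) zero_lt_one (abs_nonneg _)]
          rw [← ENNReal.ofReal_sum_of_nonneg fun a _ => mul_nonneg
            (Real.rpow_nonneg (abs_nonneg _) _) (div_nonneg (mul_nonneg hg.le
              (Real.Gamma_nonneg_of_nonneg (by norm_num))) (Real.Gamma_nonneg_of_nonneg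
                (by linarith))), Finset.mul_sum]
          congr 1
          refine Finset.sum_congr rfl fun a _ => ?_
          rw [show γ - 1 + 1 = γ by ring, show (1:ℝ) + 1 = 2 by norm_num]
          ring
      _ ≤ ∫⁻ t in Set.Ioi (0:ℝ), ∫⁻ x, ENNReal.ofReal (t ^ (γ - 2) * k t x) := by
          refine setLIntegral_mono (Measurable.lintegral_prod_right'
            (f := fun z : ℝ × ℝ => ENNReal.ofReal (z.1 ^ (γ - 2) * k z.1 z.2)) (by fun_prop))
            fun t ht => ?_
          have ht0 : (0:ℝ) ≤ t ^ (γ - 2) := Real.rpow_nonneg (le_of_lt ht) _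
          rw [← ENNReal.ofReal_sum_of_nonneg fun i _ => mul_nonneg
            (Real.rpow_nonneg (le_of_lt ht) _) (Real.rpow_nonneg (le_max_right _ _) _),
            ← ofReal_integral_eq_lintegral_ofReal
              (((hhi (J₀ t) t).pos_part).const_mul (t ^ (γ - 2)))
              (Filter.Eventually.of_forall fun x => mul_nonneg ht0 (hk0 t x)), integral_const_mul]
          refine ENNReal.ofReal_le_ofReal ?_
          simp only [Real.rpow_one, ← Finset.mul_sum, show γ - 1 - 1 = γ - 2 by ring]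
          exact mul_le_mul_of_nonneg_left (hleft t) ht0
      _ = ∫⁻ x, ∫⁻ t in Set.Ioi (0:ℝ), ENNReal.ofReal (t ^ (γ - 2) * k t x) :=
          lintegral_lintegral_swap (by
            exact (show Measurable (Function.uncurry fun t x =>
              ENNReal.ofReal (t ^ (γ - 2) * k t x)) by
                unfold Function.uncurry; fun_prop).aemeasurable)
      _ ≤ ∫⁻ x, ENNReal.ofReal (K' * trPow (γ + 1 / 2) (W x)) := lintegral_mono hinner
      _ = _ := by
          rw [← ofReal_integral_eq_lintegral_ofReal (hW.2.2.const_mul _)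
            (Filter.Eventually.of_forall fun x => ?_), integral_const_mul]
          exact mul_nonneg (mul_nonneg (by positivity) (div_nonneg (mul_nonneg hg.le
            (Real.Gamma_nonneg_of_nonneg (by norm_num))) (Real.Gamma_nonneg_of_nonneg
              (by linarith)))) (trPow_nonneg (hW.2.1 x) _)
  have hK0 : 0 < K := by
    have := Real.Gamma_pos_of_pos (show (0:ℝ) < γ + 1 by linarith)
    have := Real.Gamma_pos_of_pos (show (0:ℝ) < 2 by norm_num)
    positivity
  have hP : 0 ≤ ∫ x, trPow (γ + 1 / 2) (W x) :=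
    integral_nonneg fun x => trPow_nonneg (hW.2.1 x) _
  have hK'0 : 0 ≤ K' := by
    have := Real.Gamma_pos_of_pos (show (0:ℝ) < γ + 3 / 2 by linarith)
    have := Real.Gamma_pos_of_pos (show (0:ℝ) < 5 / 2 by norm_num)
    positivity
  rw [ENNReal.ofReal_le_ofReal_iff (mul_nonneg hK'0 hP)] at main
  have e52 : Real.Gamma (5 / 2) = 3 / 4 * √Real.pi := by
    rw [show (5:ℝ) / 2 = 3 / 2 + 1 by norm_num, Real.Gamma_add_one (by norm_num),
      show (3:ℝ) / 2 = 1 / 2 + 1 by norm_num, Real.Gamma_add_one (by norm_num),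
      Real.Gamma_one_half_eq]
    ring
  have hKK : K' = K * (2 / √3 * (Real.Gamma (γ + 1) / (2 * √Real.pi * Real.Gamma (γ + 3 / 2)))) := by
    have g1 := Real.Gamma_pos_of_pos (show (0:ℝ) < γ + 3 / 2 by linarith)
    have g2 := Real.Gamma_pos_of_pos (show (0:ℝ) < γ + 1 by linarith)
    rw [hK', hK, hc, e52, Real.Gamma_two]
    field_simp
    nlinarith [Real.sq_sqrt Real.pi_pos.le, Real.sq_sqrt (show (0:ℝ) ≤ 3 by norm_num)]
  rw [hKK, mul_assoc] at main
  exact le_of_mul_le_mul_left main hK0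

/-- `L_γ(m) ≤ (2/√3) L^cl_γ` for every `γ ≥ 1`. -/
theorem gamma_bound {γ : ℝ} (hγ : 1 ≤ γ) {W : ℝ → Matrix (Fin m) (Fin m) ℂ}
    (hW : IsPotentialPow (γ + 1 / 2) W) {μ : Fin N → ℝ} {ψ : Fin N → Fin m → ℝ → ℂ}
    (heig : ∀ i, μ i < 0 ∧ IsEigenfunction W (μ i) (ψ i)) (ho : IsOrthonormal ψ) :
    ∑ i, |μ i| ^ γ ≤ 2 / √3 * (Real.Gamma (γ + 1) / (2 * √Real.pi * Real.Gamma (γ + 3 / 2))) *
      ∫ x, trPow (γ + 1 / 2) (W x) := by
  rcases eq_or_lt_of_le hγ with rfl | h
  · have hW' : IsPotential W := by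
      have h2 := hW
      rw [show (1:ℝ) + 1 / 2 = 3 / 2 by norm_num] at h2
      exact h2
    choose dψ hψ heq using fun i => (heig i).2
    have hv := variational_bound hW' hψ ho
    have hμ : ∀ i, |μ i| ^ (1:ℝ) = (∫ x, (star (fun c => ψ i c x) ⬝ᵥ W x *ᵥ fun c => ψ i c x).re) -
        ∫ x, ∑ c, ‖dψ i c x‖ ^ 2 := by
      intro i
      have e := congrArg Complex.re (heq i (ψ i) (dψ i) (hψ i))
      have h1 : (∫ x, ∑ c, conj (dψ i c x) * dψ i c x) =
          ((∫ x, ∑ c, ‖dψ i c x‖ ^ 2 : ℝ) : ℂ) := by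
        rw [← integral_complex_ofReal]
        simp [Complex.conj_mul']
      rw [ho i i, if_pos rfl, mul_one, Complex.sub_re, h1, Complex.ofReal_re, Complex.ofReal_re] at e
      have h2 := integral_re (integrable_form (p := 3 / 2) (by norm_num) hW' (hψ i) (hψ i))
      simp only [RCLike.re_to_complex] at h2
      rw [Real.rpow_one, abs_of_neg (heig i).1]
      linarith
    simp only [hμ]
    refine hv.trans (le_of_eq ?_)
    rw [show (1:ℝ) + 1 / 2 = 3 / 2 by norm_num, show (1:ℝ) + 3 / 2 = 3 / 2 + 1 by norm_num,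
      show (1:ℝ) + 1 = 2 by norm_num, Real.Gamma_two, Real.Gamma_add_one (by norm_num),
      show (3:ℝ) / 2 = 1 / 2 + 1 by norm_num, Real.Gamma_add_one (by norm_num),
      Real.Gamma_one_half_eq]
    congr 1
    field_simp
    nlinarith [Real.sq_sqrt Real.pi_pos.le, Real.sq_sqrt (show (0:ℝ) ≤ 3 by norm_num)]
  · exact sum_rpow_gamma_bound h hW heig ho

end Vale.Agent.LT
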