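import Vale.Agent.LT.Defs

/-!
The matrix Young inequality `Re tr (W R) ≤ L tr W^(3/2) + π²/4 tr R³`.
-/

namespace Vale.Agent.LT

open Matrix Complex Finset
open scoped ComplexConjugate ComplexOrder

variable {m : ℕ}

theorem young_scalar {w r : ℝ} (hw : 0 ≤ w) (hr : 0 ≤ r) :
    w * r ≤ 4 / (3 * √3 * Real.pi) * w ^ (3 / 2 : ℝ) + Real.pi ^ 2 / 4 * r ^ 3 := by
  set a : ℝ := √3 * Real.pi / 2 with ha
  have ha0 : 0 < a := by positivity
  set t : ℝ := √w with ht
  have ht0 : 0 ≤ t := Real.sqrt_nonneg w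
  have htw : t ^ 2 = w := Real.sq_sqrt hw
  have e1 : w ^ (3 / 2 : ℝ) = t ^ 3 := by
    rw [ht, Real.sqrt_eq_rpow, ← Real.rpow_natCast, ← Real.rpow_mul hw]
    norm_num
  have e2 : 4 / (3 * √3 * Real.pi) = 2 / (3 * a) := by rw [ha]; field_simp; ring
  have e3 : Real.pi ^ 2 / 4 = a ^ 2 / 3 := by
    rw [ha, div_pow, mul_pow, Real.sq_sqrt (by norm_num : (0:ℝ) ≤ 3)]; ring
  rw [e1, e2, e3, ← htw]
  have key : 0 ≤ (t - a * r) ^ 2 * (2 * t + a * r) := by positivity
  have : 3 * a * (t ^ 2 * r) ≤ 2 * t ^ 3 + a ^ 3 * r ^ 3 := by nlinarith [key]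
  rw [show 2 / (3 * a) * t ^ 3 + a ^ 2 / 3 * r ^ 3 = (2 * t ^ 3 + a ^ 3 * r ^ 3) / (3 * a) by
    field_simp, le_div_iff₀ (by positivity)]
  linarith

theorem exists_spectral {A : Matrix (Fin m) (Fin m) ℂ} (hA : A.PosSemidef) :
    ∃ (V : Matrix (Fin m) (Fin m) ℂ) (w : Fin m → ℝ), Vᴴ * V = 1 ∧ V * Vᴴ = 1 ∧
      A = V * diagonal (fun i => (w i : ℂ)) * Vᴴ ∧ (∀ i, 0 ≤ w i) ∧
      ∀ p, trPow p A = ∑ i, w i ^ p := by
  have hV : (hA.1.eigenvectorUnitary : Matrix (Fin m) (Fin m) ℂ)ᴴ *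
      (hA.1.eigenvectorUnitary : Matrix (Fin m) (Fin m) ℂ) = 1 :=
    Unitary.coe_star_mul_self hA.1.eigenvectorUnitary
  refine ⟨↑hA.1.eigenvectorUnitary, hA.1.eigenvalues, hV,
    Unitary.coe_mul_star_self hA.1.eigenvectorUnitary, ?_, hA.eigenvalues_nonneg, fun p => ?_⟩
  · have := hA.1.spectral_theorem
    rw [Unitary.conjStarAlgAut_apply] at this
    exact this
  · rw [trPow, hA.1.cfc_eq, Matrix.IsHermitian.cfc, Unitary.conjStarAlgAut_apply,
      Matrix.trace_mul_comm, ← Matrix.mul_assoc, Unitary.coe_star_mul_self, Matrix.one_mul]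
    simp [Matrix.trace, re_sum]

theorem trPow_nonneg {A : Matrix (Fin m) (Fin m) ℂ} (hA : A.PosSemidef) (p : ℝ) :
    0 ≤ trPow p A := by
  obtain ⟨V, w, -, -, -, hw, hp⟩ := exists_spectral hA
  rw [hp]
  exact Finset.sum_nonneg fun i _ => Real.rpow_nonneg (hw i) p

theorem sum_normSq_row {V : Matrix (Fin m) (Fin m) ℂ} (h : V * Vᴴ = 1) (a : Fin m) :
    ∑ i, normSq (V a i) = 1 := by
  have e := congrArg Complex.re (congrFun (congrFun h a) a)
  simpa [Matrix.mul_apply, re_sum, mul_conj] using e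

theorem norm_entry_le {W : Matrix (Fin m) (Fin m) ℂ} (hW : W.PosSemidef) {p : ℝ} (h1p : 1 ≤ p)
    (a b : Fin m) : ‖W a b‖ ≤ trPow p W + m := by
  obtain ⟨V, w, hV, hV', rfl, hw, hp⟩ := exists_spectral hW
  rw [hp, Matrix.mul_apply]
  simp only [Matrix.mul_diagonal, conjTranspose_apply]
  have one : ∀ c i, ‖V c i‖ ≤ 1 := by
    intro c i
    have h : normSq (V c i) ≤ ∑ i, normSq (V c i) :=
      Finset.single_le_sum (f := fun i => normSq (V c i)) (fun _ _ => normSq_nonneg _) (mem_univ i)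
    rw [sum_normSq_row hV' c, normSq_eq_norm_sq] at h
    nlinarith [norm_nonneg (V c i)]
  calc ‖∑ i, V a i * (w i : ℂ) * star (V b i)‖ ≤ ∑ i, ‖V a i * (w i : ℂ) * star (V b i)‖ :=
        norm_sum_le _ _
    _ ≤ ∑ i, (w i ^ p + 1) := by
        refine Finset.sum_le_sum fun i _ => ?_
        rw [norm_mul, norm_mul, norm_star, Complex.norm_real, Real.norm_eq_abs, abs_of_nonneg (hw i)]
        have h1 : w i ≤ w i ^ p + 1 := by
          rcases le_total (w i) 1 with h | h
          · linarith [Real.rpow_nonneg (hw i) p]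
          · linarith [Real.self_le_rpow_of_one_le h h1p]
        calc ‖V a i‖ * w i * ‖V b i‖ ≤ 1 * w i * 1 := by
              exact mul_le_mul (mul_le_mul_of_nonneg_right (one a i) (hw i)) (one b i) (norm_nonneg _)
                (mul_nonneg zero_le_one (hw i))
          _ ≤ _ := by linarith
    _ = _ := by simp [Finset.sum_add_distrib]

theorem matrix_young_shift {W R V : Matrix (Fin m) (Fin m) ℂ} {w : Fin m → ℝ} (hV : Vᴴ * V = 1)
    (hV' : V * Vᴴ = 1) (eW : W = V * diagonal (fun i => (w i : ℂ)) * Vᴴ) (hR : R.PosSemidef)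
    (τ : ℝ) :
    ((W * R).trace).re ≤ τ * (R.trace).re +
      4 / (3 * √3 * Real.pi) * (∑ a, max (w a - τ) 0 ^ (3 / 2 : ℝ)) +
      Real.pi ^ 2 / 4 * ((R * R * R).trace).re := by
  obtain ⟨Z, r, hZ, hZ', eR, hr, -⟩ := exists_spectral hR
  set Q := Vᴴ * Z with hQ
  have hQ1 : Q * Qᴴ = 1 := by
    rw [hQ, conjTranspose_mul, conjTranspose_conjTranspose, Matrix.mul_assoc, ← Matrix.mul_assoc Z,
      hZ', Matrix.one_mul, hV]
  have hQ2 : Qᴴ * Q = 1 := by
    rw [hQ, conjTranspose_mul, conjTranspose_conjTranspose, Matrix.mul_assoc, ← Matrix.mul_assoc V,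
      hV', Matrix.one_mul, hZ]
  have eT : (W * R).trace = (diagonal (fun i => (w i : ℂ)) * Q * diagonal (fun i => (r i : ℂ)) * Qᴴ).trace := by
    rw [eW, eR, show V * diagonal (fun i => (w i : ℂ)) * Vᴴ * (Z * diagonal (fun i => (r i : ℂ)) * Zᴴ) =
      V * (diagonal (fun i => (w i : ℂ)) * Q * diagonal (fun i => (r i : ℂ)) * Zᴴ) by
        simp [hQ, Matrix.mul_assoc], Matrix.trace_mul_comm]
    simp [hQ, conjTranspose_mul, Matrix.mul_assoc]
  have e1 : ((W * R).trace).re = ∑ a, ∑ b, normSq (Q a b) * (w a * r b) := by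
    rw [eT]
    simp only [Matrix.trace, Matrix.diag, Matrix.mul_apply (M := diagonal _ * Q * diagonal _),
      Matrix.mul_diagonal, Matrix.diagonal_mul, conjTranspose_apply, re_sum]
    refine Finset.sum_congr rfl fun a _ => Finset.sum_congr rfl fun b _ => ?_
    rw [show (w a : ℂ) * Q a b * (r b : ℂ) * star (Q a b) =
      ((w a * r b : ℝ) : ℂ) * (Q a b * conj (Q a b)) by push_cast; rw [Complex.star_def]; ring,
      mul_conj, ← ofReal_mul, ofReal_re, mul_comm]
  have e3 : ((R * R * R).trace).re = ∑ b, r b ^ 3 := by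
    have cj : ∀ A B, Z * A * Zᴴ * (Z * B * Zᴴ) = Z * (A * B) * Zᴴ := fun A B => by
      calc Z * A * Zᴴ * (Z * B * Zᴴ) = Z * A * (Zᴴ * Z) * B * Zᴴ := by simp [Matrix.mul_assoc]
        _ = _ := by rw [hZ]; simp [Matrix.mul_assoc]
    rw [eR, cj, cj, Matrix.trace_mul_comm, ← Matrix.mul_assoc, hZ, Matrix.one_mul]
    simp [Matrix.trace, re_sum, pow_succ, ← ofReal_mul]
  have col : ∀ b, ∑ a, normSq (Q a b) = 1 := fun b => by
    have := sum_normSq_row (V := Qᴴ) (by rw [conjTranspose_conjTranspose]; exact hQ2) b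
    simpa using this
  have e2 : (R.trace).re = ∑ b, r b := by
    rw [eR, Matrix.trace_mul_comm, ← Matrix.mul_assoc, hZ, Matrix.one_mul]
    simp [Matrix.trace, re_sum]
  rw [e1, e2, e3]
  calc ∑ a, ∑ b, normSq (Q a b) * (w a * r b) ≤ ∑ a, ∑ b, normSq (Q a b) *
        (τ * r b + 4 / (3 * √3 * Real.pi) * max (w a - τ) 0 ^ (3 / 2 : ℝ) +
          Real.pi ^ 2 / 4 * r b ^ 3) :=
        Finset.sum_le_sum fun a _ => Finset.sum_le_sum fun b _ => by
          refine mul_le_mul_of_nonneg_left ?_ (normSq_nonneg _)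
          have := young_scalar (le_max_right (w a - τ) 0) (hr b)
          nlinarith [mul_le_mul_of_nonneg_right (le_max_left (w a - τ) 0) (hr b)]
    _ = _ := by
        simp only [mul_add, Finset.sum_add_distrib]
        congr 1
        congr 1
        · rw [Finset.sum_comm]
          simp only [← Finset.sum_mul, col, one_mul, ← Finset.mul_sum]
        · simp only [← Finset.sum_mul, sum_normSq_row hQ1, one_mul, ← Finset.mul_sum]
        · rw [Finset.sum_comm]
          simp only [← Finset.sum_mul, col, one_mul, ← Finset.mul_sum]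

theorem matrix_young {W R : Matrix (Fin m) (Fin m) ℂ} (hW : W.PosSemidef) (hR : R.PosSemidef) :
    ((W * R).trace).re ≤ 4 / (3 * √3 * Real.pi) * trPow (3 / 2) W +
      Real.pi ^ 2 / 4 * ((R * R * R).trace).re := by
  obtain ⟨V, w, hV, hV', eW, hw, hp⟩ := exists_spectral hW
  have := matrix_young_shift hV hV' eW hR 0
  simpa [hp, hw] using this

theorem trPow_diagonal (p : ℝ) {d : Fin m → ℝ} (hd : ∀ i, 0 ≤ d i) :
    trPow p (diagonal fun i => (d i : ℂ)) = ∑ i, d i ^ p := by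
  have hA : (diagonal fun i => (d i : ℂ)).PosSemidef :=
    PosSemidef.diagonal fun i => by simpa using hd i
  have h := hA.1.roots_charpoly_eq_eigenvalues
  rw [charpoly_diagonal, Finset.prod_eq_multiset_prod,
    show (univ.val.map fun i => Polynomial.X - Polynomial.C (d i : ℂ)) =
      ((univ.val.map fun i => (d i : ℂ)).map fun z => Polynomial.X - Polynomial.C z) by
        rw [Multiset.map_map]; rfl, Polynomial.roots_multiset_prod_X_sub_C] at h
  have h2 := congrArg (fun s : Multiset ℂ => (s.map fun z => z.re ^ p).sum) h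
  simp only [Multiset.map_map, Function.comp_def, RCLike.ofReal_eq_complex_ofReal, ofReal_re] at h2
  rw [trPow, hA.1.cfc_eq, Matrix.IsHermitian.cfc, Unitary.conjStarAlgAut_apply, Matrix.trace_mul_comm,
    ← Matrix.mul_assoc, Unitary.coe_star_mul_self, Matrix.one_mul]
  simpa [Matrix.trace, re_sum, List.sum_ofFn] using h2.symm

end Vale.Agent.LT
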