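import Vale.Agent.LT.Line
import Vale.Agent.LT.Young
import Vale.Agent.P371.Sharp

/-!
The sharp Lieb-Thirring bound at exponent one for matrix potentials, and sharpness.
-/

namespace Vale.Agent.LT

open Matrix Complex Finset MeasureTheory Filter
open scoped ComplexConjugate ComplexOrder
open Vale.Agent.P371 (MemH1)

variable {m N : ℕ}

theorem form_eq (W : Matrix (Fin m) (Fin m) ℂ) (v w : Fin m → ℂ) :
    (star v ⬝ᵥ W *ᵥ w) = ∑ a, ∑ b, conj (v a) * W a b * w b := by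
  simp only [dotProduct, mulVec, Finset.mul_sum, Pi.star_apply, Complex.star_def, mul_assoc]

theorem integrable_form {W : ℝ → Matrix (Fin m) (Fin m) ℂ} {p : ℝ} (h1p : 1 ≤ p)
    (hW : IsPotentialPow p W)
    {φ dφ ψ dψ : Fin m → ℝ → ℂ} (hφ : ∀ c, MemH1 (φ c) (dφ c)) (hψ : ∀ c, MemH1 (ψ c) (dψ c)) :
    Integrable fun x => star (fun c => φ c x) ⬝ᵥ W x *ᵥ fun c => ψ c x := by
  simp only [form_eq]
  refine integrable_finsetSum _ fun a _ => integrable_finsetSum _ fun b _ => ?_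
  obtain ⟨A, hA⟩ := (hφ a).exists_bound
  obtain ⟨B, hB⟩ := (hψ b).exists_bound
  refine ((hW.2.2.const_mul (A * B)).add
    (((hφ a).integrable_normSq.add (hψ b).integrable_normSq).const_mul (m : ℝ))).mono'
    (((Complex.continuous_conj.comp (hφ a).continuous).measurable.mul (hW.1 a b)).mul
      (hψ b).continuous.measurable).aestronglyMeasurable (Eventually.of_forall fun x => ?_)
  simp only [norm_mul, RCLike.norm_conj, Pi.add_apply]
  have h1 := norm_entry_le (hW.2.1 x) h1p a b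
  have hP := trPow_nonneg (hW.2.1 x) p
  have hA0 : 0 ≤ A := (norm_nonneg _).trans (hA x)
  have h2 : ‖φ a x‖ * ‖ψ b x‖ ≤ A * B := mul_le_mul (hA x) (hB x) (norm_nonneg _) hA0
  have h3 : ‖φ a x‖ * ‖ψ b x‖ ≤ ‖φ a x‖ ^ 2 + ‖ψ b x‖ ^ 2 := by
    nlinarith [sq_nonneg (‖φ a x‖ - ‖ψ b x‖), mul_nonneg (norm_nonneg (φ a x)) (norm_nonneg (ψ b x))]
  calc ‖φ a x‖ * ‖W x a b‖ * ‖ψ b x‖ = ‖W x a b‖ * (‖φ a x‖ * ‖ψ b x‖) := by ring
    _ ≤ (trPow p (W x) + m) * (‖φ a x‖ * ‖ψ b x‖) :=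
        mul_le_mul_of_nonneg_right h1 (by positivity)
    _ = trPow p (W x) * (‖φ a x‖ * ‖ψ b x‖) + m * (‖φ a x‖ * ‖ψ b x‖) := by ring
    _ ≤ _ := by
        rw [mul_comm (A * B)]
        exact add_le_add (mul_le_mul_of_nonneg_left h2 hP)
          (mul_le_mul_of_nonneg_left h3 (Nat.cast_nonneg _))

theorem re_trace_mul_gram (W : Matrix (Fin m) (Fin m) ℂ) (A : Matrix (Fin m) (Fin N) ℂ) :
    ((W * (A * Aᴴ)).trace).re = ∑ i, (star (fun c => A c i) ⬝ᵥ W *ᵥ fun c => A c i).re := by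
  rw [← Matrix.mul_assoc, Matrix.trace_mul_comm]
  simp only [Matrix.trace, Matrix.diag, Matrix.mul_apply, re_sum, dotProduct, mulVec,
    conjTranspose_apply, Pi.star_apply]

theorem trace_cube_swap (A : Matrix (Fin m) (Fin N) ℂ) :
    ((A * Aᴴ) * (A * Aᴴ) * (A * Aᴴ)).trace = (Aᴴ * A * (Aᴴ * A) * (Aᴴ * A)).trace := by
  rw [show (A * Aᴴ) * (A * Aᴴ) * (A * Aᴴ) = A * (Aᴴ * A * (Aᴴ * A) * Aᴴ) by
    simp [Matrix.mul_assoc], Matrix.trace_mul_comm]
  simp [Matrix.mul_assoc]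

/-- The variational form of the bound: for any orthonormal family in `H¹`. -/
theorem variational_bound {W : ℝ → Matrix (Fin m) (Fin m) ℂ} (hW : IsPotential W)
    {ψ dψ : Fin N → Fin m → ℝ → ℂ} (h : ∀ i c, MemH1 (ψ i c) (dψ i c)) (ho : IsOrthonormal ψ) :
    ∑ i, ((∫ x, (star (fun c => ψ i c x) ⬝ᵥ W x *ᵥ fun c => ψ i c x).re) -
        ∫ x, ∑ c, ‖dψ i c x‖ ^ 2) ≤
      4 / (3 * √3 * Real.pi) * ∫ x, trPow (3 / 2) (W x) := by
  obtain ⟨hQ, hk⟩ := kinetic h ho
  have hi : ∀ i, Integrable fun x => (star (fun c => ψ i c x) ⬝ᵥ W x *ᵥ fun c => ψ i c x).re :=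
    fun i => by simpa using (integrable_form (p := 3 / 2) (by norm_num) hW (h i) (h i)).re
  have hd : ∀ i, Integrable fun x => ∑ c, ‖dψ i c x‖ ^ 2 := fun i =>
    integrable_finsetSum _ fun c _ => (h i c).integrable_deriv_normSq
  have hT : (∫ x, (((fam dψ x)ᴴ * fam dψ x).trace).re) = ∑ i, ∫ x, ∑ c, ‖dψ i c x‖ ^ 2 := by
    rw [← integral_finsetSum _ fun i _ => hd i]
    simp [re_trace_gram, fam, normSq_eq_norm_sq]
  have hmain : (∫ x, ∑ i, (star (fun c => ψ i c x) ⬝ᵥ W x *ᵥ fun c => ψ i c x).re) ≤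
      ∫ x, (4 / (3 * √3 * Real.pi) * trPow (3 / 2) (W x) + Real.pi ^ 2 / 4 *
        (((fam ψ x)ᴴ * fam ψ x * ((fam ψ x)ᴴ * fam ψ x) * ((fam ψ x)ᴴ * fam ψ x)).trace).re) := by
    refine integral_mono (integrable_finsetSum _ fun i _ => hi i)
      ((hW.2.2.const_mul _).add (hQ.const_mul _)) fun x => ?_
    have := matrix_young (hW.2.1 x) (posSemidef_self_mul_conjTranspose (fam ψ x))
    rw [re_trace_mul_gram, trace_cube_swap] at this
    exact this
  rw [integral_finsetSum _ fun i _ => hi i, integral_add (hW.2.2.const_mul _) (hQ.const_mul _),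
    integral_const_mul, integral_const_mul] at hmain
  rw [Finset.sum_sub_distrib]
  linarith

theorem le_of_mem_ratios {r : ℝ} (hr : r ∈ ratios m) : r ≤ 4 / (3 * √3 * Real.pi) := by
  obtain ⟨W, N, μ, ψ, hW, hpos, heig, ho, rfl⟩ := hr
  choose dψ hψ heq using fun i => (heig i).2
  rw [div_le_iff₀ hpos]
  refine le_trans (le_of_eq (Finset.sum_congr rfl fun i _ => ?_)) (variational_bound hW hψ ho)
  have e := congrArg Complex.re (heq i (ψ i) (dψ i) (hψ i))
  have h1 : (∫ x, ∑ c, conj (dψ i c x) * dψ i c x) =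
      ((∫ x, ∑ c, ‖dψ i c x‖ ^ 2 : ℝ) : ℂ) := by
    rw [← integral_complex_ofReal]
    simp [Complex.conj_mul']
  rw [ho i i, if_pos rfl, mul_one, sub_re, h1, ofReal_re, ofReal_re] at e
  rw [abs_of_neg (heig i).1]
  have h2 := integral_re (integrable_form (p := 3 / 2) (by norm_num) hW (hψ i) (hψ i))
  simp only [RCLike.re_to_complex] at h2
  linarith

theorem mem_ratios (hm : 1 ≤ m) : 4 / (3 * √3 * Real.pi) ∈ ratios m := by
  obtain ⟨W, N, μ, ψ, hW, hpos, ⟨heig, ho⟩, hr⟩ := Vale.Agent.P371.ratio_attained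
  set c₀ : Fin m := ⟨0, hm⟩
  set d : ℝ → Fin m → ℝ := fun x => Function.update 0 c₀ (W x) with hd
  have hd0 : ∀ x i, 0 ≤ d x i := fun x i => by
    rcases eq_or_ne i c₀ with rfl | hi
    · simp [hd, hW.2.1 x]
    · simp [hd, hi]
  have hp : ∀ x, trPow (3 / 2) (diagonal fun i => (d x i : ℂ)) = W x ^ (3 / 2 : ℝ) := fun x => by
    rw [trPow_diagonal _ (hd0 x), Finset.sum_eq_single c₀]
    · simp [hd]
    · intro i _ hi
      simp [hd, hi]
    · simp
  refine ⟨fun x => diagonal fun i => (d x i : ℂ), N, μ, fun i => Function.update 0 c₀ (ψ i),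
    ⟨fun a b => ?_, fun x => PosSemidef.diagonal fun i => by simpa using hd0 x i, ?_⟩, ?_,
    fun i => ⟨(heig i).1, ?_⟩, fun i j => ?_, ?_⟩
  · rcases eq_or_ne a b with rfl | hab
    · simp only [diagonal_apply_eq]
      rcases eq_or_ne a c₀ with rfl | ha
      · simp only [hd, Function.update_self]
        exact Complex.measurable_ofReal.comp hW.1
      · simp [hd, ha]
    · simp [hab]
  · simpa [hp] using hW.2.2
  · simpa [hp] using hpos
  · obtain ⟨dψ, hψ, heq⟩ := (heig i).2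
    refine ⟨Function.update 0 c₀ dψ, fun c => ?_, fun φ dφ hφ => ?_⟩
    · rcases eq_or_ne c c₀ with rfl | hc
      · simpa using hψ
      · simp only [Function.update_of_ne hc, Pi.zero_apply]
        exact ⟨MemLp.zero, MemLp.zero, fun a b => by simp⟩
    · have e := heq (φ c₀) (dφ c₀) (hφ c₀)
      have s : ∀ (u : Fin m → ℂ) (v : ℝ → ℂ) (x : ℝ),
          (∑ c, u c * Function.update (0 : Fin m → ℝ → ℂ) c₀ v c x) = u c₀ * v x := fun u v x => by
        rw [Finset.sum_eq_single c₀ (fun c _ hc => by simp [hc]) (by simp)]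
        simp
      have t : ∀ x, (star (fun c => φ c x) ⬝ᵥ (diagonal fun i => (d x i : ℂ)) *ᵥ
          fun c => Function.update (0 : Fin m → ℝ → ℂ) c₀ (ψ i) c x) =
            (W x : ℂ) * (conj (φ c₀ x) * ψ i x) := fun x => by
        simp only [dotProduct, mulVec_diagonal, Pi.star_apply, Complex.star_def, ← mul_assoc]
        rw [s (fun c => conj (φ c x) * (d x c : ℂ)) (ψ i) x]
        simp [hd, mul_comm]
      simp only [s, t]
      exact e
  · have e := ho i j
    refine Eq.trans (integral_congr_ae (Eventually.of_forall fun x => ?_)) e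
    show (∑ c, _) = _
    rw [Finset.sum_eq_single c₀ (fun c _ hc => by simp [hc]) (by simp)]
    simp
  · simpa [hp] using hr

theorem isGreatest_ratios (hm : 1 ≤ m) :
    IsGreatest (ratios m) (4 / (3 * √3 * Real.pi)) :=
  ⟨mem_ratios hm, fun _ hr => le_of_mem_ratios hr⟩

end Vale.Agent.LT
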