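import Vale.Agent.LT.Strip

/-!
The cubic inequality behind the calibration: a divided-difference identity and the positivity of
the resulting quadratic forms.
-/

namespace Vale.Agent.LT

open Complex Set MeasureTheory
open scoped ComplexConjugate

variable {n : ℕ}

noncomputable def LK (a b : ℝ) : ℝ :=
  Real.sin ((a + b) / 2) * Real.sinc ((a - b) / 2) - (Real.sin a + Real.sin b) / 2

noncomputable def JK (a b c : ℝ) : ℝ :=
  ∫ s in (0:ℝ)..1, ∫ r in (0:ℝ)..1, (1 - s) * s * Real.sin ((1 - s) * a + s * ((1 - r) * b + r * c))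

theorem continuous_JK {α : Type*} [TopologicalSpace α] {f g h : α → ℝ} (hf : Continuous f)
    (hg : Continuous g) (hh : Continuous h) : Continuous fun x => JK (f x) (g x) (h x) := by
  unfold JK
  apply intervalIntegral.continuous_parametric_intervalIntegral_of_continuous'
  apply intervalIntegral.continuous_parametric_intervalIntegral_of_continuous'
  fun_prop

theorem LK_eq {a b : ℝ} (h : a ≠ b) :
    LK a b = (Real.cos b - Real.cos a) / (a - b) - (Real.sin a + Real.sin b) / 2 := by
  have hd : a - b ≠ 0 := sub_ne_zero.2 h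
  rw [LK, Real.sinc_of_ne_zero (div_ne_zero hd two_ne_zero), Real.cos_sub_cos,
    show (b + a) / 2 = (a + b) / 2 by ring, show (b - a) / 2 = -((a - b) / 2) by ring, Real.sin_neg]
  field_simp

theorem integral_weight_cos {a D : ℝ} (hD : D ≠ 0) :
    ∫ s in (0:ℝ)..1, (1 - s) * Real.cos (a + s * D) =
      -Real.sin a / D + (Real.cos a - Real.cos (a + D)) / D ^ 2 := by
  have hd : ∀ s ∈ uIcc (0:ℝ) 1, HasDerivAt
      (fun t => (1 - t) * Real.sin (a + t * D) / D - Real.cos (a + t * D) / D ^ 2)
      ((1 - s) * Real.cos (a + s * D)) s := by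
    intro s _
    have h1 : HasDerivAt (fun t => a + t * D) D s :=
      (((hasDerivAt_id s).mul_const D).const_add a).congr_deriv (one_mul D)
    refine (((((hasDerivAt_id s).const_sub 1).mul h1.sin).div_const D).sub
      (h1.cos.div_const (D ^ 2))).congr_deriv ?_
    simp only [id]
    field_simp
    ring
  rw [intervalIntegral.integral_eq_sub_of_hasDerivAt hd
    (Continuous.intervalIntegrable (by fun_prop) _ _)]
  simp
  ring

theorem JK_eq {a b c : ℝ} (hb : b ≠ a) (hc : c ≠ a) :
    JK a b c * (c - b) =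
      (-Real.sin a / (b - a) + (Real.cos a - Real.cos b) / (b - a) ^ 2) -
      (-Real.sin a / (c - a) + (Real.cos a - Real.cos c) / (c - a) ^ 2) := by
  have key : ∀ s : ℝ, (∫ r in (0:ℝ)..1,
      (1 - s) * s * Real.sin ((1 - s) * a + s * ((1 - r) * b + r * c))) * (c - b) =
      (1 - s) * Real.cos (a + s * (b - a)) - (1 - s) * Real.cos (a + s * (c - a)) := by
    intro s
    rw [← intervalIntegral.integral_mul_const]
    have hd : ∀ r ∈ uIcc (0:ℝ) 1, HasDerivAt
        (fun t => -(1 - s) * Real.cos (a + s * (b - a) + t * (s * (c - b))))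
        ((1 - s) * s * Real.sin ((1 - s) * a + s * ((1 - r) * b + r * c)) * (c - b)) r := by
      intro r _
      have h1 : HasDerivAt (fun t => a + s * (b - a) + t * (s * (c - b))) (s * (c - b)) r :=
        (((hasDerivAt_id r).mul_const _).const_add _).congr_deriv (one_mul _)
      refine (h1.cos.const_mul (-(1 - s))).congr_deriv ?_
      rw [show a + s * (b - a) + r * (s * (c - b)) = (1 - s) * a + s * ((1 - r) * b + r * c) by ring]
      ring
    rw [intervalIntegral.integral_eq_sub_of_hasDerivAt hd
      (Continuous.intervalIntegrable (by fun_prop) _ _)]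
    rw [show a + s * (b - a) + 1 * (s * (c - b)) = a + s * (c - a) by ring]
    simp only [zero_mul, add_zero]
    ring
  unfold JK
  rw [← intervalIntegral.integral_mul_const]
  simp only [key]
  rw [intervalIntegral.integral_sub (Continuous.intervalIntegrable (by fun_prop) _ _)
    (Continuous.intervalIntegrable (by fun_prop) _ _),
    integral_weight_cos (sub_ne_zero.2 hb), integral_weight_cos (sub_ne_zero.2 hc),
    add_sub_cancel, add_sub_cancel]

noncomputable def apexK (a b c : ℝ) : ℝ := (b - a) * (c - a) * JK a b c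

theorem apex_identity_distinct {a b c : ℝ} (hab : a ≠ b) (hbc : b ≠ c) (hca : c ≠ a) :
    LK a b + LK b c + LK c a = apexK a b c + apexK b c a + apexK c a b := by
  have e1 := JK_eq hab.symm hca
  have e2 := JK_eq hbc.symm hab
  have e3 := JK_eq hca.symm hbc
  have n1 : a - b ≠ 0 := sub_ne_zero.2 hab
  have n2 : b - c ≠ 0 := sub_ne_zero.2 hbc
  have n3 : c - a ≠ 0 := sub_ne_zero.2 hca
  have n1' : b - a ≠ 0 := sub_ne_zero.2 hab.symm
  have n2' : c - b ≠ 0 := sub_ne_zero.2 hbc.symm
  have n3' : a - c ≠ 0 := sub_ne_zero.2 hca.symm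
  rw [← eq_div_iff n2'] at e1
  rw [← eq_div_iff n3'] at e2
  rw [← eq_div_iff n1'] at e3
  rw [LK_eq hab, LK_eq hbc, LK_eq hca, apexK, apexK, apexK, e1, e2, e3]
  field_simp
  ring

theorem continuous_LK {α : Type*} [TopologicalSpace α] {f g : α → ℝ} (hf : Continuous f)
    (hg : Continuous g) : Continuous fun x => LK (f x) (g x) := by
  unfold LK
  exact ((Real.continuous_sin.comp ((hf.add hg).div_const 2)).mul
    (Real.continuous_sinc.comp ((hf.sub hg).div_const 2))).sub
      (((Real.continuous_sin.comp hf).add (Real.continuous_sin.comp hg)).div_const 2)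

theorem apex_identity_ne {a b c : ℝ} (hbc : b ≠ c) :
    LK a b + LK b c + LK c a = apexK a b c + apexK b c a + apexK c a b := by
  have hd : Dense ({b, c}ᶜ : Set ℝ) := by
    exact (Set.toFinite {b, c}).countable.dense_compl ℝ
  refine congrFun (Continuous.ext_on hd (f := fun a => LK a b + LK b c + LK c a)
    (g := fun a => apexK a b c + apexK b c a + apexK c a b) ?_ ?_ ?_) a
  · exact ((continuous_LK continuous_id continuous_const).add continuous_const).add
      (continuous_LK continuous_const continuous_id)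
  · unfold apexK
    refine ((Continuous.mul ?_ ?_).add (Continuous.mul ?_ ?_)).add (Continuous.mul ?_ ?_)
    · fun_prop
    · exact continuous_JK continuous_id continuous_const continuous_const
    · fun_prop
    · exact continuous_JK continuous_const continuous_const continuous_id
    · fun_prop
    · exact continuous_JK continuous_const continuous_id continuous_const
  · intro x hx
    simp only [mem_compl_iff, mem_insert_iff, mem_singleton_iff, not_or] at hx
    exact apex_identity_distinct hx.1 hbc (Ne.symm hx.2)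

theorem apex_identity (a b c : ℝ) :
    LK a b + LK b c + LK c a = apexK a b c + apexK b c a + apexK c a b := by
  rcases eq_or_ne b c with rfl | h
  · rcases eq_or_ne b a with rfl | h2
    · simp [LK, apexK]
    · have := apex_identity_ne (a := b) (b := b) (c := a) h2
      linarith
  · exact apex_identity_ne h

theorem apex_form_nonneg {X : Matrix (Fin n) (Fin n) ℂ} (hX : X.IsHermitian) {φ : Fin n → ℝ}
    (hφ : ∀ i, φ i ∈ Ioo 0 Real.pi)
    (hS : ∀ w, 0 ≤ (form X w fun j k => Real.sin ((φ j + φ k) / 2)).re)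
    (v : Fin n → ℂ) (i : Fin n) :
    0 ≤ (form X v fun j k => JK (φ i) (φ j) (φ k)).re := by
  have hre : ∀ K : Fin n → Fin n → ℝ, (form X v K).re =
      ∑ j, ∑ k, (conj (v j) * v k * X j k).re * K j k := by
    intro K; simp [form, re_sum, mul_re]
  have hpt : ∀ s ∈ Icc (0:ℝ) 1, ∀ r ∈ Icc (0:ℝ) 1, 0 ≤ ∑ j, ∑ k, (conj (v j) * v k * X j k).re *
      ((1 - s) * s * Real.sin ((1 - s) * φ i + s * ((1 - r) * φ j + r * φ k))) := by
    intro s hs r hr
    rw [← hre (fun j k => (1 - s) * s * Real.sin ((1 - s) * φ i + s * ((1 - r) * φ j + r * φ k))),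
      form_smul X v (fun j k => Real.sin ((1 - s) * φ i + s * ((1 - r) * φ j + r * φ k))),
      re_ofReal_mul]
    rcases eq_or_lt_of_le hs.1 with h | h0
    · simp [← h]
    refine mul_nonneg (mul_nonneg (by linarith [hs.2]) hs.1) ?_
    rw [form_re_symm hX]
    set A := (1 - s) * φ i with hA
    set ω := s * (1 - 2 * r) / 2 with hω
    have e : (fun j k => (Real.sin (A + s * ((1 - r) * φ j + r * φ k)) +
        Real.sin (A + s * ((1 - r) * φ k + r * φ j))) / 2) = fun j k =>
        Real.cos (ω * φ j) * Real.cos (ω * φ k) * Real.sin (A + s * ((φ j + φ k) / 2)) +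
        Real.sin (ω * φ j) * Real.sin (ω * φ k) * Real.sin (A + s * ((φ j + φ k) / 2)) := by
      funext j k
      have e1 : A + s * ((1 - r) * φ j + r * φ k) =
          (A + s * ((φ j + φ k) / 2)) + (ω * φ j - ω * φ k) := by rw [hω]; ring
      have e2 : A + s * ((1 - r) * φ k + r * φ j) =
          (A + s * ((φ j + φ k) / 2)) - (ω * φ j - ω * φ k) := by rw [hω]; ring
      rw [e1, e2]
      simp only [Real.sin_add, Real.sin_sub, Real.cos_add, Real.cos_sub]
      ring
    rw [e, form_add, add_re, ← form_diag_mul X v (fun j k => Real.sin (A + s * ((φ j + φ k) / 2))),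
      ← form_diag_mul X v (fun j k => Real.sin (A + s * ((φ j + φ k) / 2)))]
    have hA0 : 0 ≤ A := mul_nonneg (by linarith [hs.2]) (hφ i).1.le
    have hA1 : A ≤ (1 - s) * Real.pi := mul_le_mul_of_nonneg_left (hφ i).2.le (by linarith [hs.2])
    exact add_nonneg (sin_affine_nonneg hX hφ hS _ h0 hs.2 hA0 hA1)
      (sin_affine_nonneg hX hφ hS _ h0 hs.2 hA0 hA1)
  set c : Fin n → Fin n → ℝ := fun j k => (conj (v j) * v k * X j k).re
  set F : Fin n → Fin n → ℝ → ℝ → ℝ := fun j k s r =>
    (1 - s) * s * Real.sin ((1 - s) * φ i + s * ((1 - r) * φ j + r * φ k))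
  have hF : ∀ j k, Continuous fun s => ∫ r in (0:ℝ)..1, F j k s r := fun j k =>
    intervalIntegral.continuous_parametric_intervalIntegral_of_continuous' (by fun_prop) 0 1
  have e : (form X v fun j k => JK (φ i) (φ j) (φ k)).re =
      ∫ s in (0:ℝ)..1, ∫ r in (0:ℝ)..1, ∑ j, ∑ k, c j k * F j k s r := by
    have inner : ∀ s, (∫ r in (0:ℝ)..1, ∑ j, ∑ k, c j k * F j k s r) =
        ∑ j, ∑ k, c j k * ∫ r in (0:ℝ)..1, F j k s r := by
      intro s
      rw [intervalIntegral.integral_finsetSum fun j _ =>
        Continuous.intervalIntegrable (by fun_prop) _ _]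
      refine Finset.sum_congr rfl fun j _ => ?_
      rw [intervalIntegral.integral_finsetSum fun k _ =>
        Continuous.intervalIntegrable (by fun_prop) _ _]
      exact Finset.sum_congr rfl fun k _ => intervalIntegral.integral_const_mul _ _
    simp only [inner]
    rw [hre, intervalIntegral.integral_finsetSum fun j _ =>
      (continuous_finsetSum _ fun k _ => (hF j k).const_mul _).intervalIntegrable _ _]
    refine Finset.sum_congr rfl fun j _ => ?_
    rw [intervalIntegral.integral_finsetSum fun k _ => ((hF j k).const_mul _).intervalIntegrable _ _]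
    exact Finset.sum_congr rfl fun k _ => (intervalIntegral.integral_const_mul _ _).symm
  rw [e]
  exact intervalIntegral.integral_nonneg zero_le_one fun s hs =>
    intervalIntegral.integral_nonneg zero_le_one fun r hr => hpt s hs r hr

theorem sum_cyclic {M : Type*} [AddCommMonoid M] (G : Fin n → Fin n → Fin n → M) :
    ∑ i, ∑ j, ∑ k, G i j k = ∑ i, ∑ j, ∑ k, G j k i := by
  conv_rhs => rw [Finset.sum_comm]
  refine Finset.sum_congr rfl fun i _ => ?_
  rw [Finset.sum_comm]

/-- The core cubic inequality. -/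
theorem core_cubic {X : Matrix (Fin n) (Fin n) ℂ} (hX : X.IsHermitian) {φ : Fin n → ℝ}
    (hφ : ∀ i, φ i ∈ Ioo 0 Real.pi)
    (hS : ∀ w, 0 ≤ (form X w fun j k => Real.sin ((φ j + φ k) / 2)).re) :
    0 ≤ (∑ i, ∑ j, ∑ k, X i j * X j k * X k i * (LK (φ i) (φ j) : ℂ)).re := by
  set P : Fin n → Fin n → Fin n → ℝ := fun i j k => (X i j * X j k * X k i).re
  have hP : ∀ i j k, P j k i = P i j k := fun i j k => by simp only [P]; congr 1; ring
  have hcyc : ∀ K : Fin n → Fin n → Fin n → ℝ,
      ∑ i, ∑ j, ∑ k, P i j k * K j k i = ∑ i, ∑ j, ∑ k, P i j k * K i j k := by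
    intro K
    rw [sum_cyclic (fun i j k => P i j k * K i j k)]
    exact Finset.sum_congr rfl fun i _ => Finset.sum_congr rfl fun j _ =>
      Finset.sum_congr rfl fun k _ => by rw [← hP i j k]
  have hid : ∑ i, ∑ j, ∑ k, P i j k * LK (φ i) (φ j) =
      ∑ i, ∑ j, ∑ k, P i j k * apexK (φ i) (φ j) (φ k) := by
    have h2 := hcyc (fun i j _ => LK (φ i) (φ j))
    have h3 := (hcyc (fun i j k => LK (φ j) (φ k))).trans h2
    have g2 := hcyc (fun i j k => apexK (φ i) (φ j) (φ k))
    have g3 := (hcyc (fun i j k => apexK (φ j) (φ k) (φ i))).trans g2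
    have hsum : ∑ i, ∑ j, ∑ k, P i j k * (LK (φ i) (φ j) + LK (φ j) (φ k) + LK (φ k) (φ i)) =
        ∑ i, ∑ j, ∑ k, P i j k * (apexK (φ i) (φ j) (φ k) + apexK (φ j) (φ k) (φ i) +
          apexK (φ k) (φ i) (φ j)) := by
      simp only [apex_identity]
    simp only [mul_add, Finset.sum_add_distrib] at hsum
    linarith
  have hre : (∑ i, ∑ j, ∑ k, X i j * X j k * X k i * (LK (φ i) (φ j) : ℂ)).re =
      ∑ i, ∑ j, ∑ k, P i j k * LK (φ i) (φ j) := by
    simp [P, re_sum, mul_re]
  rw [hre, hid]
  refine Finset.sum_nonneg fun i _ => ?_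
  have h := apex_form_nonneg hX hφ hS (fun j => ((φ j - φ i : ℝ) : ℂ) * X j i) i
  refine h.trans (le_of_eq ?_)
  simp only [form, re_sum]
  refine Finset.sum_congr rfl fun j _ => Finset.sum_congr rfl fun k _ => ?_
  have hc : conj (X j i) = X i j := by simpa using hX.apply i j
  rw [map_mul, conj_ofReal, hc,
    show ((φ j - φ i : ℝ) : ℂ) * X i j * (((φ k - φ i : ℝ) : ℂ) * X k i) * X j k *
      (JK (φ i) (φ j) (φ k) : ℂ) = ((apexK (φ i) (φ j) (φ k) : ℝ) : ℂ) * (X i j * X j k * X k i) by
        rw [apexK]; push_cast; ring,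
    re_ofReal_mul]
  exact mul_comm _ _

end Vale.Agent.LT
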