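import Vale.Agent.P371.Defs

/-!
# P371: definitions for matrix potentials at exponent one
-/

namespace Vale.Agent.LT

open MeasureTheory Matrix
open scoped ComplexConjugate ComplexOrder
open Vale.Agent.P371 (MemH1)

variable {m : ℕ}

/-- `tr A^p`, the power being taken by functional calculus. -/
noncomputable def trPow (p : ℝ) (A : Matrix (Fin m) (Fin m) ℂ) : ℝ :=
  (cfc (fun t : ℝ => t ^ p) A).trace.re

/-- A matrix potential for the exponent one: measurable, positive semidefinite, with integrable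
`tr W^(3/2)`. -/
def IsPotential (W : ℝ → Matrix (Fin m) (Fin m) ℂ) : Prop :=
  (∀ a b, Measurable fun x => W x a b) ∧ (∀ x, (W x).PosSemidef) ∧
    Integrable fun x => trPow (3 / 2) (W x)

/-- A matrix potential for the exponent `γ = p - 1/2`: measurable, positive semidefinite, with
integrable `tr W^p`. -/
def IsPotentialPow (p : ℝ) (W : ℝ → Matrix (Fin m) (Fin m) ℂ) : Prop :=
  (∀ a b, Measurable fun x => W x a b) ∧ (∀ x, (W x).PosSemidef) ∧
    Integrable fun x => trPow p (W x)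

/-- `ψ` is an eigenfunction with eigenvalue `μ` of the operator of the closed form
`∫ ‖ψ'‖² - ∫ ⟨ψ, W ψ⟩` on `H¹(ℝ; ℂ^m)`. -/
def IsEigenfunction (W : ℝ → Matrix (Fin m) (Fin m) ℂ) (μ : ℝ) (ψ : Fin m → ℝ → ℂ) : Prop :=
  ∃ dψ : Fin m → ℝ → ℂ, (∀ c, MemH1 (ψ c) (dψ c)) ∧
    ∀ φ dφ : Fin m → ℝ → ℂ, (∀ c, MemH1 (φ c) (dφ c)) →
      (∫ x, ∑ c, conj (dφ c x) * dψ c x) -
          ∫ x, (star (fun c => φ c x) ⬝ᵥ W x *ᵥ fun c => ψ c x) =
        (μ : ℂ) * ∫ x, ∑ c, conj (φ c x) * ψ c x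

/-- An orthonormal family in `L²(ℝ; ℂ^m)`. -/
def IsOrthonormal {N : ℕ} (ψ : Fin N → Fin m → ℝ → ℂ) : Prop :=
  ∀ i j, ∫ x, ∑ c, conj (ψ i c x) * ψ j c x = if i = j then 1 else 0

/-- All ratios of a sum of absolute values of negative eigenvalues (an orthonormal family of
eigenfunctions, so with multiplicity) to `∫ tr W^(3/2)`, for `m × m` potentials `W ≠ 0`. -/
def ratios (m : ℕ) : Set ℝ :=
  {r | ∃ (W : ℝ → Matrix (Fin m) (Fin m) ℂ) (N : ℕ) (μ : Fin N → ℝ)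
      (ψ : Fin N → Fin m → ℝ → ℂ),
    IsPotential W ∧ 0 < (∫ x, trPow (3 / 2) (W x)) ∧
      (∀ i, μ i < 0 ∧ IsEigenfunction W (μ i) (ψ i)) ∧ IsOrthonormal ψ ∧
      r = (∑ i, |μ i|) / ∫ x, trPow (3 / 2) (W x)}

end Vale.Agent.LT
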