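import Vale.Agent.LT.Pointwise
import Vale.Agent.LT.AC

/-!
The calibration along an absolutely continuous family of functions on a bounded interval.
-/

namespace Vale.Agent.LT

open Matrix Complex Finset MeasureTheory
open scoped ComplexConjugate Topology

variable {n : ℕ} {m : ℕ}

theorem star_dot_self (w : Fin n → ℂ) :
    (star w ⬝ᵥ w) = ((∑ i, normSq (w i) : ℝ) : ℂ) := by
  simp [dotProduct, normSq_eq_conj_mul_self]

theorem diag_value {V : Matrix (Fin n) (Fin n) ℂ} (hV : Vᴴ * V = 1) (M : Matrix (Fin n) (Fin n) ℂ)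
    (i : Fin n) : (star (fun k => V k i) ⬝ᵥ M *ᵥ fun k => V k i) = (Vᴴ * M * V) i i := by
  simp only [dotProduct, mulVec, Matrix.mul_apply, conjTranspose_apply, Pi.star_apply,
    Finset.mul_sum, Finset.sum_mul]
  rw [Finset.sum_comm]
  exact Finset.sum_congr rfl fun a _ => Finset.sum_congr rfl fun b _ => by ring

/-- Bounds on the quadratic form give `GoodH` with the corresponding spectral bounds. -/
theorem goodH_of_form {H : Matrix (Fin n) (Fin n) ℂ} (hH : H.IsHermitian) {δ : ℝ}
    (hb : ∀ w : Fin n → ℂ, δ * (∑ i, normSq (w i)) ≤ (star w ⬝ᵥ H *ᵥ w).re ∧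
      (star w ⬝ᵥ H *ᵥ w).re ≤ (Real.pi / 2 - δ) * ∑ i, normSq (w i)) :
    ∃ (V : Matrix (Fin n) (Fin n) ℂ) (h : Fin n → ℝ), Vᴴ * V = 1 ∧ V * Vᴴ = 1 ∧
      H = V * diagonal (fun i => (h i : ℂ)) * Vᴴ ∧ ∀ i, δ ≤ h i ∧ h i ≤ Real.pi / 2 - δ := by
  set V : Matrix (Fin n) (Fin n) ℂ := ↑hH.eigenvectorUnitary
  have hV : Vᴴ * V = 1 := Unitary.coe_star_mul_self hH.eigenvectorUnitary
  have hV' : V * Vᴴ = 1 := Unitary.coe_mul_star_self hH.eigenvectorUnitary
  have hs : H = V * diagonal (fun i => (hH.eigenvalues i : ℂ)) * Vᴴ := by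
    have := hH.spectral_theorem
    rw [Unitary.conjStarAlgAut_apply] at this
    exact this
  refine ⟨V, hH.eigenvalues, hV, hV', hs, fun i => ?_⟩
  have h1 := hb (fun k => V k i)
  rw [diag_value hV H i] at h1
  have e : (Vᴴ * H * V) i i = (hH.eigenvalues i : ℂ) := by
    conv_lhs => rw [hs, uncj hV]
    simp
  have e1 : (∑ k, normSq (V k i)) = 1 := by
    have := congrFun (congrFun hV i) i
    rw [Matrix.one_apply_eq, Matrix.mul_apply] at this
    have h2 := congrArg Complex.re this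
    simpa [re_sum, conjTranspose_apply, ← normSq_eq_conj_mul_self] using h2
  rw [e, e1, ofReal_re, mul_one, mul_one] at h1
  exact h1

/-- Size of the calibration. -/
theorem abs_calib_le {H : Matrix (Fin n) (Fin n) ℂ} {δ : ℝ} (hδ : 0 < δ)
    {V : Matrix (Fin n) (Fin n) ℂ} {h : Fin n → ℝ} (hV : Vᴴ * V = 1) (hV' : V * Vᴴ = 1)
    (hs : H = V * diagonal (fun i => (h i : ℂ)) * Vᴴ)
    (hh : ∀ i, δ ≤ h i ∧ h i ≤ Real.pi / 2 - δ) {S : Matrix (Fin n) (Fin n) ℂ} (hS : Sᴴ = S) :
    |calib H S| ≤ Real.pi / (4 * Real.sin (2 * δ)) * ((S * S).trace).re := by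
  rcases Nat.eq_zero_or_pos n with rfl | hn
  · simp [calib, Matrix.trace]
  have hd2 : 2 * δ ≤ Real.pi / 2 := by have := hh ⟨0, hn⟩; linarith
  have hgood : GoodH H := ⟨V, h, hV, hV', hs,
    fun i => ⟨by linarith [(hh i).1], by linarith [(hh i).2]⟩⟩
  have hXeq := Xop_eq hgood S
  set S₁ := Vᴴ * S * V with hS₁
  set X := Vᴴ * Xop H S * V with hXdef
  have back : ∀ A : Matrix (Fin n) (Fin n) ℂ, A = V * (Vᴴ * A * V) * Vᴴ := fun A => by
    calc A = (V * Vᴴ) * A * (V * Vᴴ) := by rw [hV']; simp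
      _ = _ := by simp [Matrix.mul_assoc]
  subst hs
  have hX : ∀ i j, (Real.sin (h i + h j) : ℂ) * X i j = S₁ i j := by
    intro i j
    have e := lyap_diag (h := h) hV hV' (Xop (V * diagonal (fun i => (h i : ℂ)) * Vᴴ) S) i j
    rw [hXeq, Matrix.mul_smul, Matrix.smul_mul, Matrix.smul_apply, smul_eq_mul] at e
    refine mul_left_cancel₀ (mul_ne_zero two_ne_zero I_ne_zero) ?_
    rw [← mul_assoc, e]
  have eX : Xop (V * diagonal (fun i => (h i : ℂ)) * Vᴴ) S = V * X * Vᴴ := back _
  have eN : Nop (V * diagonal (fun i => (h i : ℂ)) * Vᴴ) S =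
      V * (Matrix.of fun i j => (Real.cos (h i + h j) : ℂ) * X i j) * Vᴴ := by
    rw [Nop, eX, Ep_conj hV hV', Em_conj hV hV', conj_mul_conj hV, conj_mul_conj hV,
      conj_mul_conj hV, conj_mul_conj hV, ← Matrix.add_mul, ← Matrix.mul_add, ← Matrix.smul_mul,
      ← Matrix.mul_smul]
    congr 2
    ext i j
    rw [Matrix.smul_apply, Matrix.add_apply, lyap_entry I h, lyap_entry (-I) h, ← add_mul,
      exp_add_exp, Matrix.of_apply, Complex.ofReal_cos, smul_eq_mul]
    ring
  have hS₁h : S₁ᴴ = S₁ := by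
    rw [hS₁, conjTranspose_mul, conjTranspose_mul, conjTranspose_conjTranspose, hS, Matrix.mul_assoc]
  have eS : (S * S).trace = (S₁ * S₁).trace := by
    conv_lhs => rw [back S, conj_mul_conj hV, trace_conj hV]
  have eT : (S * Nop (V * diagonal (fun i => (h i : ℂ)) * Vᴴ) S).trace =
      (S₁ * Matrix.of fun i j => (Real.cos (h i + h j) : ℂ) * X i j).trace := by
    rw [eN]
    conv_lhs => arg 1; arg 1; rw [back S]
    rw [conj_mul_conj hV, trace_conj hV, ← hS₁]
  have hsd : 0 < Real.sin (2 * δ) :=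
    Real.sin_pos_of_pos_of_lt_pi (by linarith) (by linarith [Real.pi_pos])
  have hsin : ∀ i j, Real.sin (2 * δ) ≤ Real.sin (h i + h j) := by
    intro i j
    rcases le_total (h i + h j) (Real.pi / 2) with hc | hc
    · exact Real.sin_le_sin_of_le_of_le_pi_div_two (by linarith [Real.pi_pos]) hc
        (by linarith [(hh i).1, (hh j).1])
    · rw [← Real.sin_pi_sub (h i + h j)]
      exact Real.sin_le_sin_of_le_of_le_pi_div_two (by linarith [Real.pi_pos]) (by linarith)
        (by linarith [(hh i).2, (hh j).2])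
  have e1 : ((S₁ * Matrix.of fun i j => (Real.cos (h i + h j) : ℂ) * X i j).trace).re =
      ∑ i, ∑ j, Real.cos (h i + h j) / Real.sin (h i + h j) * normSq (S₁ i j) := by
    simp only [Matrix.trace, Matrix.diag, Matrix.mul_apply, Matrix.of_apply, re_sum]
    refine Finset.sum_congr rfl fun i _ => Finset.sum_congr rfl fun j _ => ?_
    have hpos := hsd.trans_le (hsin i j)
    rw [add_comm (h j) (h i)]
    have hx : X j i = ((1 / Real.sin (h i + h j) : ℝ) : ℂ) * conj (S₁ i j) := by
      have hji := hX j i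
      rw [add_comm (h j) (h i)] at hji
      rw [← Complex.star_def, ← conjTranspose_apply, hS₁h, ← hji, ← mul_assoc, ← ofReal_mul,
        one_div_mul_cancel hpos.ne', ofReal_one, one_mul]
    rw [hx, show S₁ i j * ((Real.cos (h i + h j) : ℂ) * (((1 / Real.sin (h i + h j) : ℝ) : ℂ) *
      conj (S₁ i j))) = ((Real.cos (h i + h j) / Real.sin (h i + h j) : ℝ) : ℂ) *
        (S₁ i j * conj (S₁ i j)) by push_cast; ring, Complex.mul_conj, ← ofReal_mul, ofReal_re]
  have e2 : ((S₁ * S₁).trace).re = ∑ i, ∑ j, normSq (S₁ i j) := by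
    simp only [Matrix.trace, Matrix.diag, Matrix.mul_apply, re_sum]
    refine Finset.sum_congr rfl fun i _ => Finset.sum_congr rfl fun j _ => ?_
    conv_lhs => arg 1; arg 2; rw [← hS₁h, conjTranspose_apply, Complex.star_def]
    rw [Complex.mul_conj, ofReal_re]
  rw [calib, eT, eS, e1, e2, abs_mul, abs_neg, abs_of_pos (by positivity : 0 < Real.pi / 4),
    show Real.pi / (4 * Real.sin (2 * δ)) * ∑ i, ∑ j, normSq (S₁ i j) =
      Real.pi / 4 * ∑ i, ∑ j, 1 / Real.sin (2 * δ) * normSq (S₁ i j) by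
        simp only [← Finset.mul_sum]; ring]
  refine mul_le_mul_of_nonneg_left ((Finset.abs_sum_le_sum_abs _ _).trans
    (Finset.sum_le_sum fun i _ => (Finset.abs_sum_le_sum_abs _ _).trans
      (Finset.sum_le_sum fun j _ => ?_))) (by positivity)
  rw [abs_mul, abs_div, abs_of_nonneg (normSq_nonneg _), abs_of_pos (hsd.trans_le (hsin i j))]
  exact mul_le_mul_of_nonneg_right
    (div_le_div₀ zero_le_one (Real.abs_cos_le_one _) hsd (hsin i j)) (normSq_nonneg _)

theorem trace_cross (E F A X Y : Matrix (Fin n) (Fin n) ℂ) (hEF : E * F = 1) (hFE : F * E = 1) :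
    (E * X * E * ((A * X + F * Y) * F + F * X * A)).trace =
      (X * X * (E * A)).trace + (X * Y).trace + (X * X * (A * E)).trace := by
  have h1 : (E * X * E * (A * X * F)).trace = (X * X * (E * A)).trace := by
    rw [show E * X * E * (A * X * F) = E * (X * (E * A) * X * F) by simp [Matrix.mul_assoc],
      Matrix.trace_mul_comm, show X * (E * A) * X * F * E = X * (E * A) * X * (F * E) by
        simp [Matrix.mul_assoc], hFE, Matrix.mul_one, Matrix.trace_mul_comm, ← Matrix.mul_assoc]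
  have h2 : (E * X * E * (F * Y * F)).trace = (X * Y).trace := by
    rw [show E * X * E * (F * Y * F) = E * (X * (E * F) * Y * F) by simp [Matrix.mul_assoc],
      Matrix.trace_mul_comm, show X * (E * F) * Y * F * E = X * (E * F) * Y * (F * E) by
        simp [Matrix.mul_assoc], hFE, hEF, Matrix.mul_one, Matrix.mul_one]
  have h3 : (E * X * E * (F * X * A)).trace = (X * X * (A * E)).trace := by
    rw [show E * X * E * (F * X * A) = E * (X * (E * F) * X * A) by simp [Matrix.mul_assoc],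
      Matrix.trace_mul_comm, hEF, Matrix.mul_one, Matrix.mul_assoc]
  rw [Matrix.add_mul, Matrix.mul_add, Matrix.mul_add, trace_add, trace_add, h1, h2, h3]

theorem two_I_smul_trace (S' S N N' F G F' G' : Matrix (Fin n) (Fin n) ℂ)
    (hS : (2 * I) • S = F - G) (hS' : (2 * I) • S' = F' - G')
    (hN : N = (1 / 2 : ℂ) • (F + G)) (hN' : N' = (1 / 2 : ℂ) • (F' + G')) :
    (2 * I) * ((S * N').trace - (S' * N).trace) = (F * G').trace - (G * F').trace := by
  have e : ∀ A B : Matrix (Fin n) (Fin n) ℂ,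
      (2 * I) * (A * B).trace = (((2 * I) • A) * B).trace := fun A B => by
    rw [Matrix.smul_mul, trace_smul, smul_eq_mul]
  rw [mul_sub, e, e, hS, hS', hN, hN', Matrix.mul_smul, Matrix.mul_smul, trace_smul, trace_smul,
    Matrix.sub_mul, Matrix.sub_mul, Matrix.mul_add, Matrix.mul_add, Matrix.mul_add, Matrix.mul_add,
    trace_sub, trace_sub, trace_add, trace_add, trace_add, trace_add, smul_eq_mul, smul_eq_mul,
    Matrix.trace_mul_comm F' F, Matrix.trace_mul_comm G' G, Matrix.trace_mul_comm F' G,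
    Matrix.trace_mul_comm G' F]
  ring

theorem differentiableAt_matrix_det {ι : Type*} [Fintype ι] [DecidableEq ι]
    {M : ℝ → Matrix ι ι ℂ} {x : ℝ} (hM : ∀ i j, DifferentiableAt ℝ (fun t => M t i j) x) :
    DifferentiableAt ℝ (fun t => (M t).det) x := by
  simp only [Matrix.det_apply']
  exact DifferentiableAt.fun_sum fun σ _ => (differentiableAt_const _).mul
    (DifferentiableAt.fun_finset_prod fun i _ => hM _ _)

theorem differentiableAt_Xop {H S : ℝ → Matrix (Fin n) (Fin n) ℂ} {x : ℝ} (hH : GoodH (H x))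
    (hE : ∀ i j, DifferentiableAt ℝ (fun t => Ep (H t) i j) x)
    (hF : ∀ i j, DifferentiableAt ℝ (fun t => Em (H t) i j) x)
    (hS : ∀ i j, DifferentiableAt ℝ (fun t => S t i j) x) (i j : Fin n) :
    DifferentiableAt ℝ (fun t => Xop (H t) (S t) i j) x := by
  have hl : ∀ p q, DifferentiableAt ℝ (fun t => lyapM (H t) p q) x := fun p q =>
    ((hE _ _).mul (hE _ _)).sub ((hF _ _).mul (hF _ _))
  have hne : (lyapM (H x)).det ≠ 0 := (lyapM_isUnit hH).ne_zero
  simp only [Xop, Matrix.of_apply, mulVec, dotProduct, Matrix.inv_def, Matrix.smul_apply,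
    Ring.inverse_eq_inv', smul_eq_mul, Matrix.adjugate_apply]
  refine DifferentiableAt.fun_sum fun q _ => DifferentiableAt.mul (DifferentiableAt.mul ?_ ?_)
    ((hS _ _).const_mul _)
  · exact (differentiableAt_matrix_det hl).inv hne
  · refine differentiableAt_matrix_det fun a b => ?_
    simp only [Matrix.updateRow_apply]
    split_ifs
    · exact differentiableAt_const _
    · exact hl a b

theorem calib_hasDerivAt {H : ℝ → Matrix (Fin n) (Fin n) ℂ} {U U' : ℝ → Matrix (Fin m) (Fin n) ℂ}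
    {x : ℝ} (hgood : ∀ᶠ y in 𝓝 x, GoodH (H y)) (hU : MatDerivAt U (U' x) x)
    (hE : MatDerivAt (fun y => Ep (H y)) (exzD I (H x) ((Real.pi / 2 : ℂ) • ((U x)ᴴ * U x))) x)
    (hF : ∀ i j, DifferentiableAt ℝ (fun y => Em (H y) i j) x) :
    HasDerivAt (fun y => calib (H y) ((U y)ᴴ * U y))
      (-(Real.pi / 4) * ((2 * (((U' x)ᴴ * U x + (U x)ᴴ * U' x) * Nop (H x) ((U x)ᴴ * U x)).trace +
          I * (Xop (H x) ((U x)ᴴ * U x) * Xop (H x) ((U x)ᴴ * U x) *
            (exzD I (H x) ((Real.pi / 2 : ℂ) • ((U x)ᴴ * U x)) * Em (H x) +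
              Em (H x) * exzD I (H x) ((Real.pi / 2 : ℂ) • ((U x)ᴴ * U x)))).trace)).re) x := by
  have hSd := hU.conjTranspose.matMul hU
  set E' := exzD I (H x) ((Real.pi / 2 : ℂ) • ((U x)ᴴ * U x))
  set S' := (U' x)ᴴ * U x + (U x)ᴴ * U' x
  have hx := hgood.self_of_nhds
  obtain ⟨F', hF'⟩ : ∃ A, MatDerivAt (fun y => Em (H y)) A x :=
    ⟨Matrix.of fun i j => deriv (fun y => Em (H y) i j) x, fun i j => (hF i j).hasDerivAt⟩
  have hXd : ∀ i j, DifferentiableAt ℝ (fun y => Xop (H y) ((U y)ᴴ * U y) i j) x :=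
    differentiableAt_Xop hx (fun i j => (hE i j).differentiableAt) hF
      (fun i j => (hSd i j).differentiableAt)
  obtain ⟨X', hX'⟩ : ∃ A, MatDerivAt (fun y => Xop (H y) ((U y)ᴴ * U y)) A x :=
    ⟨Matrix.of fun i j => deriv (fun y => Xop (H y) ((U y)ᴴ * U y) i j) x,
      fun i j => (hXd i j).hasDerivAt⟩
  have h1 := (hE.matMul hF').unique ((matDerivAt_const 1 x).congr
    (hgood.mono fun y hy => ((Ep_mul_Em hy).1).symm))
  have h2 := (hF'.matMul hE).unique ((matDerivAt_const 1 x).congr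
    (hgood.mono fun y hy => ((Ep_mul_Em hy).2).symm))
  have dF := (hE.matMul hX').matMul hE
  have dG := (hF'.matMul hX').matMul hF'
  have hSeq := Xop_eq hx ((U x)ᴴ * U x)
  have hS' := (hSd.smul (2 * I)).unique ((dF.sub dG).congr
    (hgood.mono fun y hy => Xop_eq hy _))
  have dN : MatDerivAt (fun y => Nop (H y) ((U y)ᴴ * U y)) _ x := (dF.add dG).smul (1 / 2)
  set X := Xop (H x) ((U x)ᴴ * U x)
  obtain ⟨hEF, hFE⟩ := Ep_mul_Em hx
  have key := two_I_smul_trace S' ((U x)ᴴ * U x) (Nop (H x) ((U x)ᴴ * U x)) _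
    (Ep (H x) * X * Ep (H x)) (Em (H x) * X * Em (H x)) _ _ hSeq.symm hS' rfl
    (rfl : (1 / 2 : ℂ) • _ = _)
  rw [trace_cross (Ep (H x)) (Em (H x)) F' X X' hEF hFE,
    trace_cross (Em (H x)) (Ep (H x)) E' X X' hFE hEF] at key
  refine (((Complex.reCLM.hasFDerivAt).comp_hasDerivAt x (hSd.matMul dN).trace).const_mul
    (-(Real.pi / 4))).congr_deriv ?_
  simp only [Complex.reCLM_apply, trace_add]
  congr 2
  set N' := (1 / 2 : ℂ) • ((E' * X + Ep (H x) * X') * Ep (H x) + Ep (H x) * X * E' +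
    ((F' * X + Em (H x) * X') * Em (H x) + Em (H x) * X * F'))
  have ha : (X * X * (Ep (H x) * F')).trace = -(X * X * (E' * Em (H x))).trace := by
    rw [← trace_neg, ← Matrix.mul_neg, (eq_neg_of_add_eq_zero_right h1)]
  have hb : (X * X * (F' * Ep (H x))).trace = -(X * X * (Em (H x) * E')).trace := by
    rw [← trace_neg, ← Matrix.mul_neg, (eq_neg_of_add_eq_zero_left h2)]
  rw [ha, hb] at key
  rw [Matrix.mul_add, trace_add]
  have hI : (I : ℂ) ^ 2 = -1 := I_sq
  linear_combination (-I / 2) * key + ((((U x)ᴴ * U x) * N').trace -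
    (S' * Nop (H x) ((U x)ᴴ * U x)).trace) * hI

theorem form_entry (M : Matrix (Fin n) (Fin n) ℂ) (w : Fin n → ℂ) :
    (star w ⬝ᵥ M *ᵥ w) = ∑ i, ∑ j, conj (w i) * w j * M i j := by
  simp only [dotProduct, mulVec, Finset.mul_sum, Pi.star_apply, Complex.star_def]
  exact Finset.sum_congr rfl fun i _ => Finset.sum_congr rfl fun j _ => by ring

theorem gram_entry_continuous {U : ℝ → Matrix (Fin m) (Fin n) ℂ}
    (hU : ∀ i j, Continuous fun x => U x i j) (i j : Fin n) :
    Continuous fun x => ((U x)ᴴ * U x) i j := by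
  simp only [Matrix.mul_apply, conjTranspose_apply]
  exact continuous_finsetSum _ fun a _ => ((hU a i).star).mul (hU a j)

theorem gram_form (U : Matrix (Fin m) (Fin n) ℂ) (w : Fin n → ℂ) :
    (star w ⬝ᵥ (Uᴴ * U) *ᵥ w) = ((∑ a, normSq ((U *ᵥ w) a) : ℝ) : ℂ) := by
  rw [← Matrix.mulVec_mulVec, Matrix.dotProduct_mulVec, Matrix.vecMul_conjTranspose, star_star,
    star_dot_self]

theorem interval_ineq {U U' : ℝ → Matrix (Fin m) (Fin n) ℂ}
    (hU'i : ∀ i j, LocallyIntegrable (fun x => U' x i j))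
    (hU : ∀ i j x y, ∫ t in x..y, U' t i j = U y i j - U x i j)
    {ε a b : ℝ} (hε : 0 < ε) (hε1 : 2 * ε < 1) (hab : a ≤ b)
    (hT : IntervalIntegrable (fun x => (((U' x)ᴴ * U' x).trace).re) volume a b)
    (hG : ∀ w : Fin n → ℂ,
      ∫ x in a..b, ∑ c, normSq ((U x *ᵥ w) c) ≤ (1 - 2 * ε) * ∑ i, normSq (w i)) :
    Real.pi ^ 2 / 4 * ∫ x in a..b, (((U x)ᴴ * U x * ((U x)ᴴ * U x) * ((U x)ᴴ * U x)).trace).re ≤
      (∫ x in a..b, (((U' x)ᴴ * U' x).trace).re) +
        Real.pi / (4 * Real.sin (Real.pi * ε)) *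
          ((((U a)ᴴ * U a * ((U a)ᴴ * U a)).trace).re + (((U b)ᴴ * U b * ((U b)ᴴ * U b)).trace).re) := by
  have hgi : ∀ i j x y, IntervalIntegrable (fun t => U' t i j) volume x y := fun i j x y =>
    ((hU'i i j).integrableOn_isCompact isCompact_uIcc).intervalIntegrable
  have hUe : ∀ i j, (fun x => U x i j) = fun x => U 0 i j + ∫ t in (0:ℝ)..x, U' t i j :=
    fun i j => funext fun x => by rw [hU]; ring
  have hUc : ∀ i j, Continuous fun x => U x i j := fun i j => by
    rw [hUe i j]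
    exact continuous_const.add (intervalIntegral.continuous_primitive (hgi i j) 0)
  have hUd : ∀ᵐ x, MatDerivAt U (U' x) x := by
    have : ∀ᵐ x, ∀ i j, HasDerivAt (fun t => U t i j) (U' x i j) x :=
      ae_all_iff.2 fun i => ae_all_iff.2 fun j => by
        filter_upwards [LocallyIntegrable.ae_hasDerivAt_integral (hU'i i j)] with x hx
        rw [hUe i j]
        exact (hx 0).const_add _
    exact this
  have hSc := gram_entry_continuous hUc
  set S := fun x => (U x)ᴴ * U x
  set B : ℝ → Matrix (Fin n) (Fin n) ℂ := fun x =>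
    Matrix.of fun i j => (ε : ℂ) * (1 : Matrix (Fin n) (Fin n) ℂ) i j + ∫ y in a..x, S y i j
  set H := fun x => (Real.pi / 2 : ℂ) • B x
  have hB : ∀ x, MatDerivAt B (S x) x := fun x i j =>
    ((intervalIntegral.integral_hasDerivAt_right ((hSc i j).intervalIntegrable _ _)
      ((hSc i j).stronglyMeasurableAtFilter _ _) (hSc i j).continuousAt)).const_add _
  have hH : ∀ x, MatDerivAt H ((Real.pi / 2 : ℂ) • S x) x := fun x => (hB x).smul _
  have hBherm : ∀ x, (H x).IsHermitian := by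
    intro x
    refine Matrix.IsHermitian.ext fun i j => ?_
    simp only [H, B, Matrix.smul_apply, Matrix.of_apply, smul_eq_mul, StarMul.star_mul, star_add,
      Complex.star_def, conj_ofReal, map_div₀, map_ofNat, intervalIntegral, map_sub]
    have hs : ∀ y, conj (S y j i) = S y i j := fun y => by
      have : (S y)ᴴ = S y := by simp [S, conjTranspose_mul]
      simpa using congrFun (congrFun this i) j
    rw [← integral_conj, ← integral_conj]
    simp only [hs, Matrix.one_apply, apply_ite conj, map_one, map_zero, eq_comm (a := i)]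
    ring
  have hform : ∀ x w, (star w ⬝ᵥ H x *ᵥ w).re = Real.pi / 2 *
      (ε * (∑ i, normSq (w i)) + ∫ y in a..x, ∑ c, normSq ((U y *ᵥ w) c)) := by
    intro x w
    have hb : (star w ⬝ᵥ B x *ᵥ w) = (ε : ℂ) * ((∑ i, normSq (w i) : ℝ) : ℂ) +
        ((∫ y in a..x, ∑ c, normSq ((U y *ᵥ w) c) : ℝ) : ℂ) := by
      rw [← intervalIntegral.integral_ofReal]
      simp only [← gram_form, form_entry, B, Matrix.of_apply, mul_add, Finset.sum_add_distrib]
      congr 1
      · simp [Matrix.one_apply, Finset.sum_ite_eq, Finset.mul_sum, normSq_eq_conj_mul_self]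
        exact Finset.sum_congr rfl fun i _ => by ring
      · rw [intervalIntegral.integral_finsetSum fun i _ =>
          (continuous_finsetSum _ fun j _ => (hSc i j).const_mul _).intervalIntegrable _ _]
        refine Finset.sum_congr rfl fun i _ => ?_
        rw [intervalIntegral.integral_finsetSum fun j _ => ((hSc i j).const_mul _).intervalIntegrable _ _]
        exact Finset.sum_congr rfl fun j _ => (intervalIntegral.integral_const_mul _ _).symm
    rw [show H x = ((Real.pi / 2 : ℝ) : ℂ) • B x by simp [H], Matrix.smul_mulVec, dotProduct_smul,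
      smul_eq_mul, hb, re_ofReal_mul]
    simp
  have hWc : ∀ w : Fin n → ℂ, Continuous fun y => ∑ c, normSq ((U y *ᵥ w) c) := fun w => by
    simp only [mulVec, dotProduct]
    exact continuous_finsetSum _ fun c _ => continuous_normSq.comp
      (continuous_finsetSum _ fun j _ => (hUc c j).mul continuous_const)
  have hgood : ∀ x ∈ Set.Icc a b, ∃ (V : Matrix (Fin n) (Fin n) ℂ) (h : Fin n → ℝ),
      Vᴴ * V = 1 ∧ V * Vᴴ = 1 ∧ H x = V * diagonal (fun i => (h i : ℂ)) * Vᴴ ∧
        ∀ i, Real.pi / 2 * ε ≤ h i ∧ h i ≤ Real.pi / 2 - Real.pi / 2 * ε := by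
    intro x hx
    refine goodH_of_form (hBherm x) fun w => ?_
    rw [hform]
    have h0 : 0 ≤ ∫ y in a..x, ∑ c, normSq ((U y *ᵥ w) c) :=
      intervalIntegral.integral_nonneg hx.1 fun y _ => Finset.sum_nonneg fun c _ => normSq_nonneg _
    have h1 : ∫ y in a..x, ∑ c, normSq ((U y *ᵥ w) c) ≤ (1 - 2 * ε) * ∑ i, normSq (w i) := by
      refine le_trans ?_ (hG w)
      rw [← intervalIntegral.integral_add_adjacent_intervals ((hWc w).intervalIntegrable a x)
        ((hWc w).intervalIntegrable x b)]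
      linarith [intervalIntegral.integral_nonneg (f := fun y => ∑ c, normSq ((U y *ᵥ w) c))
        (μ := volume) hx.2 fun y _ => Finset.sum_nonneg fun c _ => normSq_nonneg _]
    have hp : 0 ≤ Real.pi / 2 := by positivity
    constructor
    · have := mul_nonneg hp h0
      linarith
    · have := mul_le_mul_of_nonneg_left h1 hp
      linarith
  have hgood' : ∀ x ∈ Set.Icc a b, GoodH (H x) := by
    intro x hx
    obtain ⟨V, h, h1, h2, h3, h4⟩ := hgood x hx
    have : 0 < Real.pi / 2 * ε := by positivity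
    exact ⟨V, h, h1, h2, h3, fun i => ⟨by linarith [(h4 i).1], by linarith [(h4 i).2]⟩⟩
  have hHc : ∀ i j, Continuous fun x => H x i j := fun i j =>
    continuous_iff_continuousAt.2 fun x => (hH x i j).continuousAt
  obtain ⟨R, hR0, hR1, hR2⟩ : ∃ R, 1 ≤ R ∧ (∀ x ∈ Set.Ioo (a - 1) (b + 1), ∀ i j, ‖H x i j‖ ≤ R) ∧
      ∀ x ∈ Set.Ioo (a - 1) (b + 1), ∀ i j, ‖((Real.pi / 2 : ℂ) • S x) i j‖ ≤ R := by
    have hc : Continuous fun x =>
        (∑ i, ∑ j, ‖H x i j‖) + ∑ i, ∑ j, ‖((Real.pi / 2 : ℂ) • S x) i j‖ :=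
      (continuous_finsetSum _ fun i _ => continuous_finsetSum _ fun j _ => (hHc i j).norm).add
        (continuous_finsetSum _ fun i _ => continuous_finsetSum _ fun j _ =>
          ((hSc i j).const_mul _).norm)
    obtain ⟨C, hC⟩ := isCompact_Icc.exists_bound_of_continuousOn
      (hc.continuousOn (s := Set.Icc (a - 1) (b + 1)))
    have one : ∀ (A : Matrix (Fin n) (Fin n) ℂ) i j, ‖A i j‖ ≤ ∑ i, ∑ j, ‖A i j‖ := fun A i j =>
      (Finset.single_le_sum (f := fun j => ‖A i j‖) (fun _ _ => norm_nonneg _) (mem_univ j)).trans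
        (Finset.single_le_sum (f := fun i => ∑ j, ‖A i j‖)
          (fun _ _ => Finset.sum_nonneg fun _ _ => norm_nonneg _) (mem_univ i))
    have nn : ∀ A : Matrix (Fin n) (Fin n) ℂ, 0 ≤ ∑ i, ∑ j, ‖A i j‖ := fun A =>
      Finset.sum_nonneg fun _ _ => Finset.sum_nonneg fun _ _ => norm_nonneg _
    refine ⟨max C 1, le_max_right _ _, fun x hx i j => ?_, fun x hx i j => ?_⟩
    · have := (le_abs_self _).trans (hC x (Set.Ioo_subset_Icc_self hx))
      linarith [one (H x) i j, nn ((Real.pi / 2 : ℂ) • S x), le_max_left C 1]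
    · have := (le_abs_self _).trans (hC x (Set.Ioo_subset_Icc_self hx))
      linarith [one ((Real.pi / 2 : ℂ) • S x) i j, nn (H x), le_max_left C 1]
  have hexz : ∀ z : ℂ, ∀ x ∈ Set.Icc a b,
      MatDerivAt (fun y => exz z (H y)) (exzD z (H x) ((Real.pi / 2 : ℂ) • S x)) x := fun z x hx =>
    matDerivAt_exz (D := fun y => (Real.pi / 2 : ℂ) • S y) isOpen_Ioo isPreconnected_Ioo
      (show x ∈ Set.Ioo (a - 1) (b + 1) from ⟨by linarith [hx.1], by linarith [hx.2]⟩)
      (fun y _ => hH y) (zero_le_one.trans hR0) zero_le_one hR1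
      (fun y hy i j => by rw [one_mul]; exact hR2 y hy i j) z
  have hEac : ∀ z : ℂ, MatAC (fun y => exz z (H y)) a b := by
    intro z i j
    set K := ∑' k : ℕ, (1 : ℝ) * ((‖z‖ * (2 * (Fintype.card (Fin n) * R))) ^ k / k.factorial)
    refine LipschitzOnWith.absolutelyContinuousOnInterval
      ((convex_uIcc a b).lipschitzOnWith_of_nnnorm_hasDerivWithin_le (C := K.toNNReal)
        (f' := fun y => exzD z (H y) ((Real.pi / 2 : ℂ) • S y) i j) (fun y hy => ?_) fun y hy => ?_)
    · rw [Set.uIcc_of_le hab] at hy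
      exact (hexz z y hy i j).hasDerivWithinAt
    · rw [Set.uIcc_of_le hab] at hy
      have hy' : y ∈ Set.Ioo (a - 1) (b + 1) := ⟨by linarith [hy.1], by linarith [hy.2]⟩
      rw [← NNReal.coe_le_coe, coe_nnnorm]
      exact (norm_exzD_le z (zero_le_one.trans hR0) zero_le_one (hR1 y hy')
        (fun p q => by rw [one_mul]; exact hR2 y hy' p q) i j).trans (Real.le_coe_toNNReal _)
  have hUac : MatAC U a b := fun i j => ac_primitive (hgi i j) (hU i j)
  have hSac : MatAC S a b := hUac.conjTranspose.matMul hUac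
  have hXac : MatAC (fun y => Xop (H y) (S y)) a b := by
    have hl : MatAC (fun y => lyapM (H y)) a b := fun p q =>
      (ac_mul (hEac I p.1 q.1) (hEac I q.2 p.2)).fun_sub
        (ac_mul (hEac (-I) p.1 q.1) (hEac (-I) q.2 p.2))
    have hne : ∀ y ∈ Set.uIcc a b, (lyapM (H y)).det ≠ 0 := fun y hy =>
      (lyapM_isUnit (hgood' y (Set.uIcc_of_le hab ▸ hy))).ne_zero
    intro i j
    simp only [Xop, Matrix.of_apply, mulVec, dotProduct, Matrix.inv_def, Matrix.smul_apply,
      Ring.inverse_eq_inv', smul_eq_mul, Matrix.adjugate_apply]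
    refine ac_sum _ fun q _ => ac_mul (ac_mul (ac_inv (ac_det hl) hne) ?_)
      (ac_mul (ac_const _ a b) (hSac _ _))
    refine ac_det fun p r => ?_
    simp only [Matrix.updateRow_apply]
    split_ifs
    · exact ac_const _ a b
    · exact hl p r
  have hcac : AbsolutelyContinuousOnInterval (fun y => calib (H y) (S y)) a b :=
    (ac_re (hSac.matMul (((((hEac I).matMul hXac).matMul (hEac I)).add
      (((hEac (-I)).matMul hXac).matMul (hEac (-I)))).smul (1 / 2))).trace).const_mul _
  set f := fun y => (((U' y)ᴴ * U' y).trace).re -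
    Real.pi ^ 2 / 4 * ((S y * S y * S y).trace).re
  have hS3 : Continuous fun y => ((S y * S y * S y).trace).re := by
    simp only [Matrix.trace, Matrix.diag, Matrix.mul_apply]
    exact Complex.continuous_re.comp (continuous_finsetSum _ fun i _ => continuous_finsetSum _ fun k _ =>
      (continuous_finsetSum _ fun l _ => (hSc i l).mul (hSc l k)).mul (hSc k i))
  have hfi : IntervalIntegrable f volume a b :=
    hT.sub ((continuous_const.mul hS3).intervalIntegrable a b)
  have key : calib (H a) (S a) - calib (H b) (S b) ≤ ∫ y in a..b, f y := by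
    rw [← neg_sub, ← hcac.integral_deriv_eq_sub, ← intervalIntegral.integral_neg]
    refine intervalIntegral.integral_mono_ae_restrict hab hcac.intervalIntegrable_deriv.neg hfi ?_
    rw [← Measure.restrict_congr_set (Ioo_ae_eq_Icc (μ := volume))]
    filter_upwards [ae_restrict_mem measurableSet_Ioo, ae_restrict_of_ae hUd] with x hx hxU
    have hnh : ∀ᶠ y in 𝓝 x, GoodH (H y) :=
      Filter.eventually_of_mem (Icc_mem_nhds hx.1 hx.2) hgood'
    have hd := calib_hasDerivAt hnh hxU (hexz I x (Set.Ioo_subset_Icc_self hx))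
      fun i j => (hexz (-I) x (Set.Ioo_subset_Icc_self hx) i j).differentiableAt
    have hp := pointwise (hgood' x (Set.Ioo_subset_Icc_self hx)) (U x) (U' x)
    simp only [f, S, Pi.neg_apply, hd.deriv]
    linarith
  have bd : ∀ x ∈ Set.Icc a b, |calib (H x) (S x)| ≤
      Real.pi / (4 * Real.sin (Real.pi * ε)) * ((S x * S x).trace).re := by
    intro x hx
    obtain ⟨V, h, h1, h2, h3, h4⟩ := hgood x hx
    have := abs_calib_le (δ := Real.pi / 2 * ε) (by positivity) h1 h2 h3 h4
      (S := S x) (by simp [S, conjTranspose_mul])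
    rwa [show 2 * (Real.pi / 2 * ε) = Real.pi * ε by ring] at this
  have b1 := abs_le.1 (bd a (Set.left_mem_Icc.2 hab))
  have b2 := abs_le.1 (bd b (Set.right_mem_Icc.2 hab))
  simp only [f] at key
  have esplit : (∫ y in a..b, ((((U' y)ᴴ * U' y).trace).re -
      Real.pi ^ 2 / 4 * ((S y * S y * S y).trace).re)) =
      (∫ y in a..b, (((U' y)ᴴ * U' y).trace).re) -
        Real.pi ^ 2 / 4 * ∫ y in a..b, ((S y * S y * S y).trace).re := by
    rw [← intervalIntegral.integral_const_mul]
    exact intervalIntegral.integral_sub hT ((continuous_const.mul hS3).intervalIntegrable _ _)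
  rw [esplit] at key
  simp only [S] at key b1 b2 ⊢
  rw [mul_add (Real.pi / _)]
  linarith

end Vale.Agent.LT
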