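import Vale.Agent.LT.Interval
import Vale.Agent.LT.Defs
import Vale.Agent.P371.H1

/-!
The sharp kinetic inequality for orthonormal families in `H¹(ℝ; ℂ^m)`.
-/

namespace Vale.Agent.LT

open Matrix Complex Finset MeasureTheory Filter
open scoped ComplexConjugate Topology
open Vale.Agent.P371 (MemH1 exists_seq_small)

variable {N m : ℕ}

/-- The family at a point, as a matrix. -/
def fam (ψ : Fin N → Fin m → ℝ → ℂ) (x : ℝ) : Matrix (Fin m) (Fin N) ℂ :=
  Matrix.of fun c i => ψ i c x

theorem re_trace_gram (A : Matrix (Fin m) (Fin N) ℂ) :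
    ((Aᴴ * A).trace).re = ∑ i, ∑ c, normSq (A c i) := by
  simp only [Matrix.trace, Matrix.diag, Matrix.mul_apply, conjTranspose_apply, re_sum,
    Complex.star_def, ← normSq_eq_conj_mul_self, ofReal_re]

theorem re_trace_gram_nonneg (A : Matrix (Fin m) (Fin N) ℂ) : 0 ≤ ((Aᴴ * A).trace).re := by
  rw [re_trace_gram]
  exact Finset.sum_nonneg fun _ _ => Finset.sum_nonneg fun _ _ => normSq_nonneg _

theorem norm_gram_le (A : Matrix (Fin m) (Fin N) ℂ) (i j : Fin N) :
    ‖(Aᴴ * A) i j‖ ≤ ((Aᴴ * A).trace).re := by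
  rw [re_trace_gram]
  simp only [Matrix.mul_apply, conjTranspose_apply]
  have hi : ∀ k, (∑ c, normSq (A c k)) ≤ ∑ i, ∑ c, normSq (A c i) := fun k =>
    Finset.single_le_sum (f := fun i => ∑ c, normSq (A c i))
      (fun _ _ => Finset.sum_nonneg fun _ _ => normSq_nonneg _) (mem_univ k)
  have h : (∑ c, ‖star (A c i) * A c j‖) ≤
      ((∑ c, normSq (A c i)) + ∑ c, normSq (A c j)) / 2 := by
    rw [← Finset.sum_add_distrib, Finset.sum_div]
    refine Finset.sum_le_sum fun c _ => ?_
    rw [norm_mul, norm_star, normSq_eq_norm_sq, normSq_eq_norm_sq]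
    nlinarith [sq_nonneg (‖A c i‖ - ‖A c j‖)]
  refine (norm_sum_le _ _).trans (h.trans ?_)
  linarith [hi i, hi j]

theorem abs_trace_cube_le {S : Matrix (Fin N) (Fin N) ℂ} {F : ℝ} (hS : ∀ i j, ‖S i j‖ ≤ F) :
    |((S * S * S).trace).re| ≤ N ^ 3 * F ^ 3 := by
  refine (abs_re_le_norm _).trans ?_
  simp only [Matrix.trace, Matrix.diag, Matrix.mul_apply, Finset.sum_mul]
  calc ‖∑ i, ∑ k, ∑ l, S i l * S l k * S k i‖ ≤ ∑ i, ∑ k, ∑ l, ‖S i l * S l k * S k i‖ :=
        (norm_sum_le _ _).trans (Finset.sum_le_sum fun i _ => (norm_sum_le _ _).trans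
          (Finset.sum_le_sum fun k _ => norm_sum_le _ _))
    _ ≤ ∑ _i : Fin N, ∑ _k : Fin N, ∑ _l : Fin N, F ^ 3 := by
        refine Finset.sum_le_sum fun i _ => Finset.sum_le_sum fun k _ => Finset.sum_le_sum fun l _ => ?_
        have h0 : 0 ≤ F := (norm_nonneg _).trans (hS i l)
        rw [norm_mul, norm_mul, pow_succ, sq]
        gcongr <;> exact hS _ _
    _ = N ^ 3 * F ^ 3 := by simp; ring

theorem abs_trace_sq_le {S : Matrix (Fin N) (Fin N) ℂ} {F : ℝ} (hS : ∀ i j, ‖S i j‖ ≤ F) :
    |((S * S).trace).re| ≤ N ^ 2 * F ^ 2 := by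
  refine (abs_re_le_norm _).trans ?_
  simp only [Matrix.trace, Matrix.diag, Matrix.mul_apply]
  calc ‖∑ i, ∑ k, S i k * S k i‖ ≤ ∑ i, ∑ k, ‖S i k * S k i‖ :=
        (norm_sum_le _ _).trans (Finset.sum_le_sum fun i _ => norm_sum_le _ _)
    _ ≤ ∑ _i : Fin N, ∑ _k : Fin N, F ^ 2 := by
        refine Finset.sum_le_sum fun i _ => Finset.sum_le_sum fun k _ => ?_
        have h0 : 0 ≤ F := (norm_nonneg _).trans (hS i k)
        rw [norm_mul, sq]
        gcongr <;> exact hS _ _
    _ = N ^ 2 * F ^ 2 := by simp; ring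

theorem kinetic {ψ dψ : Fin N → Fin m → ℝ → ℂ} (h : ∀ i c, MemH1 (ψ i c) (dψ i c))
    (ho : IsOrthonormal ψ) :
    Integrable (fun x => (((fam ψ x)ᴴ * fam ψ x * ((fam ψ x)ᴴ * fam ψ x) *
        ((fam ψ x)ᴴ * fam ψ x)).trace).re) ∧
      Real.pi ^ 2 / 4 * ∫ x, (((fam ψ x)ᴴ * fam ψ x * ((fam ψ x)ᴴ * fam ψ x) *
          ((fam ψ x)ᴴ * fam ψ x)).trace).re ≤
        ∫ x, (((fam dψ x)ᴴ * fam dψ x).trace).re := by
  set A := fam ψ
  set S := fun x => (A x)ᴴ * A x
  set F := fun x => ((S x).trace).re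
  have hAc : ∀ c i, Continuous fun x => A x c i := fun c i => (h i c).continuous
  have hSc := gram_entry_continuous hAc
  have hF0 : ∀ x, 0 ≤ F x := fun x => re_trace_gram_nonneg _
  have hFi : Integrable F := by
    simp only [F, S, re_trace_gram, normSq_eq_norm_sq]
    exact integrable_finsetSum _ fun i _ => integrable_finsetSum _ fun c _ => (h i c).integrable_normSq
  choose M hM using fun i c => (h i c).exists_bound
  have hFb : ∀ x, F x ≤ ∑ i, ∑ c, M i c ^ 2 := by
    intro x
    simp only [F, S, re_trace_gram, normSq_eq_norm_sq]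
    exact Finset.sum_le_sum fun i _ => Finset.sum_le_sum fun c _ =>
      pow_le_pow_left₀ (norm_nonneg _) (hM i c x) 2
  have hQ : Integrable (fun x => ((S x * S x * S x).trace).re) := by
    refine (hFi.const_mul ((N : ℝ) ^ 3 * (∑ i, ∑ c, M i c ^ 2) ^ 2)).mono' ?_
      (Eventually.of_forall fun x => ?_)
    · simp only [Matrix.trace, Matrix.diag, Matrix.mul_apply]
      exact (Complex.continuous_re.comp (continuous_finsetSum _ fun i _ =>
        continuous_finsetSum _ fun k _ => (continuous_finsetSum _ fun l _ =>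
          (hSc i l).mul (hSc l k)).mul (hSc k i))).aestronglyMeasurable
    · refine (abs_trace_cube_le (norm_gram_le (A x))).trans ?_
      show (N : ℝ) ^ 3 * F x ^ 3 ≤ _
      rw [pow_succ (F x), mul_assoc ((N : ℝ) ^ 3)]
      gcongr
      · exact hF0 x
      · exact hF0 x
      · exact hFb x
  refine ⟨hQ, ?_⟩
  set D := fun x => (((fam dψ x)ᴴ * fam dψ x).trace).re
  have hDi : Integrable D := by
    simp only [D, re_trace_gram, normSq_eq_norm_sq]
    exact integrable_finsetSum _ fun i _ => integrable_finsetSum _ fun c _ =>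
      (h i c).integrable_deriv_normSq
  have mass : ∀ w : Fin N → ℂ, Integrable (fun x => ∑ c, normSq ((A x *ᵥ w) c)) ∧
      ∫ x, ∑ c, normSq ((A x *ᵥ w) c) = ∑ i, normSq (w i) := by
    intro w
    have hp : ∀ i j, Integrable fun x => conj (w i) * w j * ∑ c, conj (ψ i c x) * ψ j c x := by
      intro i j
      refine (integrable_finsetSum _ fun c _ => ?_).const_mul _
      refine ((h i c).integrable_normSq.add (h j c).integrable_normSq).mono'
        ((Complex.continuous_conj.comp (h i c).continuous).mul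
          (h j c).continuous).aestronglyMeasurable (Eventually.of_forall fun x => ?_)
      rw [norm_mul, RCLike.norm_conj, Pi.add_apply]
      nlinarith [sq_nonneg (‖ψ i c x‖ - ‖ψ j c x‖), norm_nonneg (ψ i c x), norm_nonneg (ψ j c x)]
    have e : ∀ x, ((∑ c, normSq ((A x *ᵥ w) c) : ℝ) : ℂ) =
        ∑ i, ∑ j, conj (w i) * w j * ∑ c, conj (ψ i c x) * ψ j c x := fun x => by
      rw [← gram_form, form_entry]
      simp [A, fam, Matrix.mul_apply]
    have hi : Integrable fun x => ((∑ c, normSq ((A x *ᵥ w) c) : ℝ) : ℂ) := by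
      simp only [e]
      exact integrable_finsetSum _ fun i _ => integrable_finsetSum _ fun j _ => hp i j
    refine ⟨by simpa using hi.re, ?_⟩
    apply ofReal_injective
    rw [← integral_complex_ofReal, integral_congr_ae (Eventually.of_forall e),
      integral_finsetSum _ fun i _ => integrable_finsetSum _ fun j _ => hp i j, ofReal_sum]
    refine Finset.sum_congr rfl fun i _ => ?_
    rw [integral_finsetSum _ fun j _ => hp i j]
    simp [integral_const_mul, ho i, normSq_eq_conj_mul_self]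
  have approx : ∀ ε : ℝ, 0 < ε → 2 * ε < 1 →
      Real.pi ^ 2 / 4 * (1 - 2 * ε) ^ 3 * ∫ x, ((S x * S x * S x).trace).re ≤
        (1 - 2 * ε) * ∫ x, D x := by
    intro ε hε hε1
    set η : ℝ := √(1 - 2 * ε)
    have hη : η * η = 1 - 2 * ε := Real.mul_self_sqrt (by linarith)
    have scale : ∀ B : Matrix (Fin m) (Fin N) ℂ,
        ((η : ℂ) • B)ᴴ * ((η : ℂ) • B) = ((1 - 2 * ε : ℝ) : ℂ) • (Bᴴ * B) := fun B => by
      rw [conjTranspose_smul, Matrix.smul_mul, Matrix.mul_smul, smul_smul, Complex.star_def,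
        conj_ofReal, ← ofReal_mul, hη]
    have hG : ∀ a b : ℝ, a ≤ b → ∀ w : Fin N → ℂ,
        ∫ x in a..b, ∑ c, normSq ((((η : ℂ) • A x) *ᵥ w) c) ≤
          (1 - 2 * ε) * ∑ i, normSq (w i) := by
      intro a b hab w
      simp only [Matrix.smul_mulVec, Pi.smul_apply, smul_eq_mul, normSq_mul, normSq_ofReal,
        ← Finset.mul_sum, hη, intervalIntegral.integral_const_mul]
      refine mul_le_mul_of_nonneg_left ?_ (by linarith)
      rw [← (mass w).2, intervalIntegral.integral_of_le hab]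
      exact setIntegral_le_integral (mass w).1
        (Eventually.of_forall fun x => Finset.sum_nonneg fun c _ => normSq_nonneg _)
    obtain ⟨a, b, ha, hb, ha0, hb0⟩ := exists_seq_small hFi hF0
    set P := Real.pi / (4 * Real.sin (Real.pi * ε))
    have step : ∀ a b : ℝ, a ≤ b →
        Real.pi ^ 2 / 4 * ((1 - 2 * ε) ^ 3 * ∫ x in a..b, ((S x * S x * S x).trace).re) ≤
          (1 - 2 * ε) * (∫ x, D x) +
            P * ((1 - 2 * ε) ^ 2 * ((N : ℝ) ^ 2 * F a ^ 2 + (N : ℝ) ^ 2 * F b ^ 2)) := by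
      intro a b hab
      have hi := interval_ineq (U := fun x => (η : ℂ) • A x) (U' := fun x => (η : ℂ) • fam dψ x)
        (fun c i => by
          simp only [Matrix.smul_apply, fam, Matrix.of_apply]
          exact ((h i c).2.1.const_smul (η : ℂ)).locallyIntegrable (by norm_num))
        (fun c i x y => by
          simp [A, fam, intervalIntegral.integral_const_mul, (h i c).2.2 x y, mul_sub])
        hε hε1 hab (by
          simp only [scale, trace_smul, smul_eq_mul, re_ofReal_mul]
          exact (hDi.const_mul _).intervalIntegrable) (hG a b hab)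
      simp only [scale, Matrix.smul_mul, Matrix.mul_smul, smul_smul, ← ofReal_mul, trace_smul,
        smul_eq_mul, re_ofReal_mul, intervalIntegral.integral_const_mul] at hi
      have hD : (∫ x in a..b, D x) ≤ ∫ x, D x := by
        rw [intervalIntegral.integral_of_le hab]
        exact setIntegral_le_integral hDi (Eventually.of_forall fun x => re_trace_gram_nonneg _)
      have h2 : ∀ x, ((S x * S x).trace).re ≤ (N : ℝ) ^ 2 * F x ^ 2 := fun x =>
        (le_abs_self _).trans (abs_trace_sq_le (norm_gram_le (A x)))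
      have hP : 0 ≤ P := div_nonneg Real.pi_pos.le (mul_nonneg (by norm_num)
        (Real.sin_nonneg_of_nonneg_of_le_pi (by positivity) (by nlinarith [Real.pi_pos])))
      have h3 := mul_le_mul_of_nonneg_left (mul_le_mul_of_nonneg_left
        (add_le_add (h2 a) (h2 b)) (sq_nonneg (1 - 2 * ε))) hP
      have h4 := mul_le_mul_of_nonneg_left hD (by linarith : (0 : ℝ) ≤ 1 - 2 * ε)
      simp only [D, S, F] at hi h3 h4 ⊢
      linarith
    have L1 := ((intervalIntegral_tendsto_integral hQ ha hb).const_mul ((1 - 2 * ε) ^ 3)).const_mul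
      (Real.pi ^ 2 / 4)
    have L2 := ((((ha0.pow 2).const_mul ((N : ℝ) ^ 2)).add
      ((hb0.pow 2).const_mul ((N : ℝ) ^ 2))).const_mul ((1 - 2 * ε) ^ 2)).const_mul P |>.const_add
        ((1 - 2 * ε) * ∫ x, D x)
    have := le_of_tendsto_of_tendsto L1 L2 (by
      filter_upwards [ha.eventually (eventually_le_atBot 0), hb.eventually (eventually_ge_atTop 0)]
        with k h1 h2 using step _ _ (h1.trans h2))
    simpa [mul_assoc] using this
  have e0 : Tendsto (fun k : ℕ => 1 / ((k : ℝ) + 1)) atTop (𝓝 0) :=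
    tendsto_one_div_add_atTop_nhds_zero_nat
  have hs := (tendsto_const_nhds (x := (1 : ℝ))).sub (e0.const_mul 2)
  refine le_trans ?_ (le_of_tendsto_of_tendsto
    (((hs.pow 3).const_mul (Real.pi ^ 2 / 4)).mul_const (∫ x, ((S x * S x * S x).trace).re))
    (hs.mul_const (∫ x, D x)) (by
      filter_upwards [eventually_ge_atTop 2] with k hk
      have hk' : (2 : ℝ) ≤ k := by exact_mod_cast hk
      refine approx _ (by positivity) ?_
      rw [← lt_div_iff₀' (by norm_num : (0 : ℝ) < 2), div_lt_div_iff₀ (by positivity) (by norm_num)]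
      linarith) |>.trans ?_)
  · simp [S, A]
  · simp [D]

end Vale.Agent.LT
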