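import Mathlib

/-!
Entrywise derivatives of matrix-valued functions and the exponential series of a matrix.
-/

namespace Vale.Agent.LT

set_option linter.unusedSectionVars false

open Matrix Finset
open scoped ComplexConjugate

variable {l m n : Type*} [Fintype l] [Fintype m] [Fintype n]

/-- Entrywise derivative. -/
def MatDerivAt (f : ℝ → Matrix m n ℂ) (f' : Matrix m n ℂ) (x : ℝ) : Prop :=
  ∀ i j, HasDerivAt (fun t => f t i j) (f' i j) x

theorem MatDerivAt.matMul {f : ℝ → Matrix l m ℂ} {g : ℝ → Matrix m n ℂ} {f' g' x}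
    (hf : MatDerivAt f f' x) (hg : MatDerivAt g g' x) :
    MatDerivAt (fun t => f t * g t) (f' * g x + f x * g') x := fun i j => by
  have h : HasDerivAt (fun t => ∑ k, f t i k * g t k j)
      (∑ k, (f' i k * g x k j + f x i k * g' k j)) x :=
    HasDerivAt.fun_sum fun k _ => (hf i k).mul (hg k j)
  refine h.congr_deriv ?_
  simp [Matrix.mul_apply, Finset.sum_add_distrib]

theorem MatDerivAt.conjTranspose {f : ℝ → Matrix m n ℂ} {f' x} (hf : MatDerivAt f f' x) :
    MatDerivAt (fun t => (f t)ᴴ) f'ᴴ x := fun i j => (hf j i).star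

theorem MatDerivAt.trace {f : ℝ → Matrix n n ℂ} {f' x} (hf : MatDerivAt f f' x) :
    HasDerivAt (fun t => (f t).trace) f'.trace x :=
  HasDerivAt.fun_sum fun k _ => hf k k

theorem MatDerivAt.add {f g : ℝ → Matrix m n ℂ} {f' g' x} (hf : MatDerivAt f f' x)
    (hg : MatDerivAt g g' x) : MatDerivAt (fun t => f t + g t) (f' + g') x :=
  fun i j => (hf i j).add (hg i j)

theorem MatDerivAt.sub {f g : ℝ → Matrix m n ℂ} {f' g' x} (hf : MatDerivAt f f' x)
    (hg : MatDerivAt g g' x) : MatDerivAt (fun t => f t - g t) (f' - g') x :=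
  fun i j => (hf i j).sub (hg i j)

theorem MatDerivAt.smul {f : ℝ → Matrix m n ℂ} {f' x} (hf : MatDerivAt f f' x) (c : ℂ) :
    MatDerivAt (fun t => c • f t) (c • f') x := fun i j => (hf i j).const_mul c

theorem MatDerivAt.unique {f : ℝ → Matrix m n ℂ} {f' g' x} (hf : MatDerivAt f f' x)
    (hg : MatDerivAt f g' x) : f' = g' :=
  Matrix.ext fun i j => (hf i j).unique (hg i j)

theorem matDerivAt_const (A : Matrix m n ℂ) (x : ℝ) : MatDerivAt (fun _ => A) 0 x :=
  fun i j => hasDerivAt_const x (A i j)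

theorem MatDerivAt.congr {f g : ℝ → Matrix m n ℂ} {f' x} (hf : MatDerivAt f f' x)
    (h : f =ᶠ[nhds x] g) : MatDerivAt g f' x := fun i j =>
  (hf i j).congr_of_eventuallyEq (h.symm.mono fun t ht => by show g t i j = f t i j; rw [ht])

variable [DecidableEq n]

/-- The derivative of a matrix power. -/
def powD (H D : Matrix n n ℂ) : ℕ → Matrix n n ℂ
  | 0 => 0
  | k + 1 => powD H D k * H + H ^ k * D

theorem matDerivAt_pow {H : ℝ → Matrix n n ℂ} {D x} (hH : MatDerivAt H D x) :
    ∀ k, MatDerivAt (fun t => H t ^ k) (powD (H x) D k) x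
  | 0 => by simpa [powD] using matDerivAt_const (1 : Matrix n n ℂ) x
  | k + 1 => by simpa [pow_succ, powD] using (matDerivAt_pow hH k).matMul hH

theorem norm_mul_entry_le {A B : Matrix n n ℂ} {a b : ℝ} (hA : ∀ i j, ‖A i j‖ ≤ a)
    (hB : ∀ i j, ‖B i j‖ ≤ b) (i j : n) : ‖(A * B) i j‖ ≤ Fintype.card n * (a * b) := by
  rw [Matrix.mul_apply]
  refine (norm_sum_le _ _).trans ((Finset.sum_le_card_nsmul _ _ (a * b) fun k _ => ?_).trans
    (by rw [Finset.card_univ, nsmul_eq_mul]))
  rw [norm_mul]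
  exact mul_le_mul (hA i k) (hB k j) (norm_nonneg _) ((norm_nonneg _).trans (hA i k))

theorem norm_pow_entry_le {H : Matrix n n ℂ} {R : ℝ} (_hR : 0 ≤ R) (hH : ∀ i j, ‖H i j‖ ≤ R)
    (k : ℕ) : ∀ i j, ‖(H ^ k) i j‖ ≤ (Fintype.card n * R) ^ k := by
  induction k with
  | zero =>
    intro i j
    by_cases h : i = j <;> simp [h]
  | succ k ih =>
    intro i j
    rw [pow_succ]
    refine (norm_mul_entry_le ih hH i j).trans (le_of_eq ?_)
    ring

theorem norm_powD_entry_le {H D : Matrix n n ℂ} {R C : ℝ} (hR : 0 ≤ R) (hC : 0 ≤ C)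
    (hH : ∀ i j, ‖H i j‖ ≤ R) (hD : ∀ i j, ‖D i j‖ ≤ C * R) (k : ℕ) :
    ∀ i j, ‖powD H D k i j‖ ≤ C * (2 * (Fintype.card n * R)) ^ k := by
  induction k with
  | zero => intro i j; simpa [powD] using hC
  | succ k ih =>
    intro i j
    rw [powD, Matrix.add_apply]
    refine (norm_add_le _ _).trans (le_trans (add_le_add (norm_mul_entry_le ih hH i j)
      (norm_mul_entry_le (norm_pow_entry_le hR hH k) hD i j)) ?_)
    have hc : 0 ≤ C * (Fintype.card n * R) := by positivity
    have h2 : ((Fintype.card n : ℝ) * R) ^ k ≤ (2 * (Fintype.card n * R)) ^ k :=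
      pow_le_pow_left₀ (by positivity) (le_mul_of_one_le_left (by positivity) one_le_two) k
    have h3 := mul_le_mul_of_nonneg_left h2 hc
    rw [pow_succ]
    linarith

theorem summable_exz (z : ℂ) (H : Matrix n n ℂ) (i j : n) :
    Summable fun k : ℕ => z ^ k / k.factorial * (H ^ k) i j := by
  set R := ∑ a, ∑ b, ‖H a b‖
  have hR : ∀ a b, ‖H a b‖ ≤ R := fun a b =>
    (Finset.single_le_sum (f := fun b => ‖H a b‖) (fun _ _ => norm_nonneg _) (mem_univ b)).trans
      (Finset.single_le_sum (f := fun a => ∑ b, ‖H a b‖)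
        (fun _ _ => Finset.sum_nonneg fun _ _ => norm_nonneg _) (mem_univ a))
  have hR0 : 0 ≤ R := Finset.sum_nonneg fun _ _ => Finset.sum_nonneg fun _ _ => norm_nonneg _
  refine Summable.of_norm_bounded (Real.summable_pow_div_factorial (‖z‖ * (Fintype.card n * R)))
    fun k => ?_
  rw [norm_mul, norm_div, norm_pow, RCLike.norm_natCast, mul_pow, div_mul_eq_mul_div]
  gcongr
  exact norm_pow_entry_le hR0 hR k i j

/-- The exponential series of `z • H`. -/
noncomputable def exz (z : ℂ) (H : Matrix n n ℂ) : Matrix n n ℂ :=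
  Matrix.of fun i j => ∑' k : ℕ, z ^ k / k.factorial * (H ^ k) i j

/-- Its derivative in the direction `D`. -/
noncomputable def exzD (z : ℂ) (H D : Matrix n n ℂ) : Matrix n n ℂ :=
  Matrix.of fun i j => ∑' k : ℕ, z ^ k / k.factorial * powD H D k i j

theorem matDerivAt_exz {H : ℝ → Matrix n n ℂ} {D : ℝ → Matrix n n ℂ} {x : ℝ} {t : Set ℝ}
    (ht : IsOpen t) (htc : IsPreconnected t) (hx : x ∈ t)
    (hH : ∀ y ∈ t, MatDerivAt H (D y) y) {R C : ℝ} (hR : 0 ≤ R) (hC : 0 ≤ C)
    (hHb : ∀ y ∈ t, ∀ i j, ‖H y i j‖ ≤ R) (hDb : ∀ y ∈ t, ∀ i j, ‖D y i j‖ ≤ C * R) (z : ℂ) :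
    MatDerivAt (fun y => exz z (H y)) (exzD z (H x) (D x)) x := by
  intro i j
  refine hasDerivAt_tsum_of_isPreconnected
    (u := fun k : ℕ => C * ((‖z‖ * (2 * (Fintype.card n * R))) ^ k / k.factorial))
    ((Real.summable_pow_div_factorial _).mul_left C) ht htc
    (g := fun k y => z ^ k / k.factorial * (H y ^ k) i j)
    (g' := fun k y => z ^ k / k.factorial * powD (H y) (D y) k i j)
    (fun k y hy => (matDerivAt_pow (hH y hy) k i j).const_mul _) (fun k y hy => ?_) hx
    (summable_exz z (H x) i j) hx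
  rw [norm_mul, norm_div, norm_pow, RCLike.norm_natCast, mul_pow (‖z‖),
    show C * (‖z‖ ^ k * (2 * ((Fintype.card n : ℝ) * R)) ^ k / k.factorial) =
      ‖z‖ ^ k / k.factorial * (C * (2 * ((Fintype.card n : ℝ) * R)) ^ k) by ring]
  gcongr
  exact norm_powD_entry_le hR hC (hHb y hy) (hDb y hy) k i j

/-- Conjugation commutes with a weighted entrywise series. -/
theorem conj_tsum (V W : Matrix n n ℂ) (c : ℕ → ℂ) (A : ℕ → Matrix n n ℂ)
    (hs : ∀ a b, Summable fun k => c k * A k a b) (i j : n) :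
    (∑' k, c k * (V * A k * W) i j) =
      (V * (Matrix.of fun a b => ∑' k, c k * A k a b) * W) i j := by
  have e : ∀ k, c k * (V * A k * W) i j = ∑ b, ∑ a, (V i a * W b j) * (c k * A k a b) := fun k => by
    simp only [Matrix.mul_apply, Finset.sum_mul, Finset.mul_sum]
    exact Finset.sum_congr rfl fun b _ => Finset.sum_congr rfl fun a _ => by ring
  simp only [e]
  rw [Summable.tsum_finsetSum fun b _ => summable_sum fun a _ => (hs a b).mul_left _]
  simp only [Matrix.mul_apply, Matrix.of_apply, Finset.sum_mul]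
  refine Finset.sum_congr rfl fun b _ => ?_
  rw [Summable.tsum_finsetSum fun a _ => (hs a b).mul_left _]
  refine Finset.sum_congr rfl fun a _ => ?_
  rw [tsum_mul_left]; ring

theorem unit_pow {V W : Matrix n n ℂ} (hVW : W * V = 1) (hWV : V * W = 1) (D : Matrix n n ℂ) :
    ∀ k, (V * D * W) ^ k = V * D ^ k * W
  | 0 => by simp [hWV]
  | k + 1 => by
    rw [pow_succ, unit_pow hVW hWV D k, pow_succ]
    calc V * D ^ k * W * (V * D * W) = V * D ^ k * (W * V) * D * W := by simp [Matrix.mul_assoc]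
      _ = _ := by rw [hVW]; simp [Matrix.mul_assoc]

theorem exz_conj {V W : Matrix n n ℂ} (hVW : W * V = 1) (hWV : V * W = 1) (z : ℂ)
    (D : Matrix n n ℂ) : exz z (V * D * W) = V * exz z D * W := by
  ext i j
  simp only [exz, Matrix.of_apply, unit_pow hVW hWV]
  exact conj_tsum V W _ _ (summable_exz z D) i j

theorem exz_diagonal (z : ℂ) (h : n → ℂ) :
    exz z (diagonal h) = diagonal fun i => Complex.exp (z * h i) := by
  ext i j
  simp only [exz, Matrix.of_apply, diagonal_pow, Pi.pow_apply]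
  by_cases hij : i = j
  · subst hij
    simp only [diagonal_apply_eq, Pi.pow_apply]
    rw [Complex.exp_eq_exp_ℂ, NormedSpace.exp_eq_tsum_div]
    simp [mul_pow, div_mul_eq_mul_div]
  · simp [diagonal_apply_ne _ hij]

theorem powD_conj {V W : Matrix n n ℂ} (hVW : W * V = 1) (hWV : V * W = 1) (H D : Matrix n n ℂ) :
    ∀ k, powD (V * H * W) (V * D * W) k = V * powD H D k * W
  | 0 => by simp [powD]
  | k + 1 => by
    have hWV' : ∀ Z : Matrix n n ℂ, W * (V * Z) = Z := fun Z => by
      rw [← Matrix.mul_assoc, hVW, Matrix.one_mul]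
    rw [powD, powD_conj hVW hWV H D k, unit_pow hVW hWV, powD]
    simp only [Matrix.mul_add, Matrix.add_mul, Matrix.mul_assoc, hWV']

theorem summable_exzD (z : ℂ) (H D : Matrix n n ℂ) (i j : n) :
    Summable fun k : ℕ => z ^ k / k.factorial * powD H D k i j := by
  set R := (∑ a, ∑ b, ‖H a b‖) + (∑ a, ∑ b, ‖D a b‖)
  have hb : ∀ (A : Matrix n n ℂ) a b, ‖A a b‖ ≤ ∑ a, ∑ b, ‖A a b‖ := fun A a b =>
    (Finset.single_le_sum (f := fun b => ‖A a b‖) (fun _ _ => norm_nonneg _) (mem_univ b)).trans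
      (Finset.single_le_sum (f := fun a => ∑ b, ‖A a b‖)
        (fun _ _ => Finset.sum_nonneg fun _ _ => norm_nonneg _) (mem_univ a))
  have h0 : ∀ A : Matrix n n ℂ, 0 ≤ ∑ a, ∑ b, ‖A a b‖ := fun A =>
    Finset.sum_nonneg fun _ _ => Finset.sum_nonneg fun _ _ => norm_nonneg _
  refine Summable.of_norm_bounded
    (g := fun k : ℕ => 1 * ((‖z‖ * (2 * (Fintype.card n * R))) ^ k / k.factorial))
    ((Real.summable_pow_div_factorial _).mul_left 1) fun k => ?_
  rw [norm_mul, norm_div, norm_pow, RCLike.norm_natCast, mul_pow (‖z‖),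
    show 1 * (‖z‖ ^ k * (2 * ((Fintype.card n : ℝ) * R)) ^ k / k.factorial) =
      ‖z‖ ^ k / k.factorial * (1 * (2 * ((Fintype.card n : ℝ) * R)) ^ k) by ring]
  gcongr
  exact norm_powD_entry_le (add_nonneg (h0 H) (h0 D)) zero_le_one
    (fun a b => (hb H a b).trans (le_add_of_nonneg_right (h0 D)))
    (fun a b => by rw [one_mul]; exact (hb D a b).trans (le_add_of_nonneg_left (h0 H))) k i j

theorem exzD_conj {V W : Matrix n n ℂ} (hVW : W * V = 1) (hWV : V * W = 1) (z : ℂ)
    (H D : Matrix n n ℂ) : exzD z (V * H * W) (V * D * W) = V * exzD z H D * W := by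
  ext i j
  simp only [exzD, Matrix.of_apply, powD_conj hVW hWV]
  exact conj_tsum V W _ _ (summable_exzD z H D) i j

/-- The divided difference of `a ↦ exp (z a)`. -/
noncomputable def expDD (z a b : ℂ) : ℂ :=
  if a = b then z * Complex.exp (z * a) else (Complex.exp (z * a) - Complex.exp (z * b)) / (a - b)

theorem powD_diagonal (h : n → ℂ) (D : Matrix n n ℂ) (i j : n) :
    ∀ k : ℕ, powD (diagonal h) D k i j =
      (∑ l ∈ range k, h i ^ l * h j ^ (k - 1 - l)) * D i j
  | 0 => by simp [powD]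
  | k + 1 => by
    rw [powD, Matrix.add_apply, Matrix.mul_diagonal, diagonal_pow, Matrix.diagonal_mul,
      powD_diagonal h D i j k, sum_range_succ]
    simp only [Pi.pow_apply, Nat.add_sub_cancel, Nat.sub_self, pow_zero, mul_one, add_mul,
      Finset.sum_mul]
    refine congrArg (· + h i ^ k * D i j) (Finset.sum_congr rfl fun l hl => ?_)
    have : k - l = (k - 1 - l) + 1 := by have := mem_range.1 hl; omega
    rw [this, pow_succ]; ring

theorem exzD_diagonal (z : ℂ) (h : n → ℂ) (D : Matrix n n ℂ) (i j : n) :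
    exzD z (diagonal h) D i j = expDD z (h i) (h j) * D i j := by
  simp only [exzD, Matrix.of_apply, powD_diagonal, ← mul_assoc]
  rw [tsum_mul_right]
  congr 1
  have hexp : ∀ a, HasSum (fun k : ℕ => z ^ k / k.factorial * a ^ k) (Complex.exp (z * a)) := by
    intro a
    rw [Complex.exp_eq_exp_ℂ]
    simpa [mul_pow, div_mul_eq_mul_div] using NormedSpace.expSeries_div_hasSum_exp (z * a)
  unfold expDD
  split_ifs with hij
  · rw [← hij]
    have hs := ((hexp (h i)).mul_left z)
    refine HasSum.tsum_eq ((hasSum_nat_add_iff' 1).1 ?_)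
    simp only [range_zero, sum_empty, mul_zero, sum_range_one, sub_zero]
    convert hs using 1
    rotate_right
    funext k
    have e : ∀ l ∈ range (k + 1), h i ^ l * h i ^ (k + 1 - 1 - l) = h i ^ k := fun l hl => by
      rw [← pow_add]; congr 1; have := mem_range.1 hl; omega
    rw [Finset.sum_congr rfl e, sum_const, card_range, nsmul_eq_mul, Nat.factorial_succ]
    have : (k.factorial : ℂ) ≠ 0 := Nat.cast_ne_zero.2 k.factorial_ne_zero
    push_cast
    field_simp
    ring
    all_goals rfl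
  · refine HasSum.tsum_eq ?_
    have hs := ((hexp (h i)).sub (hexp (h j))).div_const (h i - h j)
    convert hs using 1
    funext k
    have := geom_sum₂_mul (h i) (h j) k
    rw [eq_div_iff (sub_ne_zero.2 hij), ← mul_sub, mul_assoc, this]

end Vale.Agent.LT
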