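import Vale.Agent.LT.Core
import Vale.Agent.LT.MatCalc

/-!
The calibration function and its pointwise inequality.
-/

namespace Vale.Agent.LT

open Matrix Complex Finset
open scoped ComplexConjugate

variable {n : ℕ} {m : ℕ}

local instance : Fintype (Fin n × Fin n) := instFintypeProd _ _

noncomputable def Ep (H : Matrix (Fin n) (Fin n) ℂ) : Matrix (Fin n) (Fin n) ℂ := exz I H

noncomputable def Em (H : Matrix (Fin n) (Fin n) ℂ) : Matrix (Fin n) (Fin n) ℂ := exz (-I) H

noncomputable def lyapM (H : Matrix (Fin n) (Fin n) ℂ) : Matrix (Fin n × Fin n) (Fin n × Fin n) ℂ :=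
  Matrix.of fun p q => Ep H p.1 q.1 * Ep H q.2 p.2 - Em H p.1 q.1 * Em H q.2 p.2

/-- The solution of `E X E - E⁻¹ X E⁻¹ = 2 I S`. -/
noncomputable def Xop (H S : Matrix (Fin n) (Fin n) ℂ) : Matrix (Fin n) (Fin n) ℂ :=
  Matrix.of fun i j => ((lyapM H)⁻¹ *ᵥ fun q => 2 * I * S q.1 q.2) (i, j)

noncomputable def Nop (H S : Matrix (Fin n) (Fin n) ℂ) : Matrix (Fin n) (Fin n) ℂ :=
  (1 / 2 : ℂ) • (Ep H * Xop H S * Ep H + Em H * Xop H S * Em H)

noncomputable def calib (H S : Matrix (Fin n) (Fin n) ℂ) : ℝ :=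
  -(Real.pi / 4) * ((S * Nop H S).trace).re

/-- Hermitian with spectrum strictly between `0` and `π / 2`, in diagonal form. -/
def GoodH (H : Matrix (Fin n) (Fin n) ℂ) : Prop :=
  ∃ (V : Matrix (Fin n) (Fin n) ℂ) (h : Fin n → ℝ), Vᴴ * V = 1 ∧ V * Vᴴ = 1 ∧
    H = V * diagonal (fun i => (h i : ℂ)) * Vᴴ ∧ ∀ i, h i ∈ Set.Ioo 0 (Real.pi / 2)

theorem lyapM_mulVec (H Y : Matrix (Fin n) (Fin n) ℂ) (i j : Fin n) :
    (lyapM H *ᵥ fun q => Y q.1 q.2) (i, j) = (Ep H * Y * Ep H - Em H * Y * Em H) i j := by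
  simp only [mulVec, dotProduct, lyapM, Matrix.of_apply, Matrix.sub_apply, Matrix.mul_apply,
    Finset.sum_mul, Fintype.sum_prod_type, ← Finset.sum_sub_distrib]
  rw [Finset.sum_comm]
  exact Finset.sum_congr rfl fun b _ => Finset.sum_congr rfl fun a _ => by ring

section basis

variable {V : Matrix (Fin n) (Fin n) ℂ} {h : Fin n → ℝ}

theorem Ep_conj (hV : Vᴴ * V = 1) (hV' : V * Vᴴ = 1) :
    Ep (V * diagonal (fun i => (h i : ℂ)) * Vᴴ) =
      V * diagonal (fun i => exp (I * h i)) * Vᴴ := by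
  rw [Ep, exz_conj hV hV', exz_diagonal]

theorem Em_conj (hV : Vᴴ * V = 1) (hV' : V * Vᴴ = 1) :
    Em (V * diagonal (fun i => (h i : ℂ)) * Vᴴ) =
      V * diagonal (fun i => exp (-I * h i)) * Vᴴ := by
  rw [Em, exz_conj hV hV', exz_diagonal]

theorem conj_mul_conj (hV : Vᴴ * V = 1) (A B : Matrix (Fin n) (Fin n) ℂ) :
    V * A * Vᴴ * (V * B * Vᴴ) = V * (A * B) * Vᴴ := by
  calc V * A * Vᴴ * (V * B * Vᴴ) = V * A * (Vᴴ * V) * B * Vᴴ := by simp [Matrix.mul_assoc]
    _ = _ := by rw [hV]; simp [Matrix.mul_assoc]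

theorem uncj (hV : Vᴴ * V = 1) (A : Matrix (Fin n) (Fin n) ℂ) :
    Vᴴ * (V * A * Vᴴ) * V = A := by
  calc Vᴴ * (V * A * Vᴴ) * V = (Vᴴ * V) * A * (Vᴴ * V) := by simp [Matrix.mul_assoc]
    _ = A := by rw [hV]; simp

theorem exp_sub_exp (a : ℂ) : exp (I * a) - exp (-I * a) = 2 * I * Complex.sin a := by
  rw [show I * a = a * I by ring, show -I * a = -(a * I) by ring, Complex.exp_mul_I, ← neg_mul,
    Complex.exp_mul_I, Complex.cos_neg, Complex.sin_neg]
  ring

theorem exp_add_exp (a : ℂ) : exp (I * a) + exp (-I * a) = 2 * Complex.cos a := by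
  rw [show I * a = a * I by ring, show -I * a = -(a * I) by ring, Complex.exp_mul_I, ← neg_mul,
    Complex.exp_mul_I, Complex.cos_neg, Complex.sin_neg]
  ring

theorem lyap_entry (z : ℂ) (g : Fin n → ℝ) (Y : Matrix (Fin n) (Fin n) ℂ) (i j : Fin n) :
    (diagonal (fun i => exp (z * g i)) * Y * diagonal (fun i => exp (z * g i))) i j =
      exp (z * (g i + g j : ℝ)) * Y i j := by
  rw [Matrix.mul_diagonal, Matrix.diagonal_mul]
  push_cast
  rw [mul_add, Complex.exp_add]; ring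

theorem lyap_diag (hV : Vᴴ * V = 1) (hV' : V * Vᴴ = 1) (Y : Matrix (Fin n) (Fin n) ℂ) (i j : Fin n) :
    (Vᴴ * (Ep (V * diagonal (fun i => (h i : ℂ)) * Vᴴ) * Y * Ep (V * diagonal (fun i => (h i : ℂ)) * Vᴴ)
      - Em (V * diagonal (fun i => (h i : ℂ)) * Vᴴ) * Y * Em (V * diagonal (fun i => (h i : ℂ)) * Vᴴ))
        * V) i j = 2 * I * (Real.sin (h i + h j) : ℂ) * (Vᴴ * Y * V) i j := by
  have hY : Y = V * (Vᴴ * Y * V) * Vᴴ := by
    calc Y = (V * Vᴴ) * Y * (V * Vᴴ) := by rw [hV']; simp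
      _ = _ := by simp [Matrix.mul_assoc]
  generalize Vᴴ * Y * V = Y' at hY ⊢
  subst hY
  rw [Ep_conj hV hV', Em_conj hV hV', conj_mul_conj hV, conj_mul_conj hV, conj_mul_conj hV,
    conj_mul_conj hV, ← Matrix.sub_mul, ← Matrix.mul_sub, uncj hV, Matrix.sub_apply,
    lyap_entry I h, lyap_entry (-I) h, ← sub_mul, exp_sub_exp, Complex.ofReal_sin]

theorem lyapM_isUnit {H : Matrix (Fin n) (Fin n) ℂ} (hH : GoodH H) : IsUnit (lyapM H).det := by
  obtain ⟨V, h, hV, hV', rfl, hh⟩ := hH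
  rw [← Matrix.isUnit_iff_isUnit_det, ← Matrix.mulVec_injective_iff_isUnit]
  intro y₁ y₂ he
  have key : ∀ y : Fin n × Fin n → ℂ,
      lyapM (V * diagonal (fun i => (h i : ℂ)) * Vᴴ) *ᵥ y = 0 → y = 0 := by
    intro y hy
    set Y : Matrix (Fin n) (Fin n) ℂ := Matrix.of fun i j => y (i, j) with hY
    have h0 : Ep (V * diagonal (fun i => (h i : ℂ)) * Vᴴ) * Y *
        Ep (V * diagonal (fun i => (h i : ℂ)) * Vᴴ) -
        Em (V * diagonal (fun i => (h i : ℂ)) * Vᴴ) * Y *
        Em (V * diagonal (fun i => (h i : ℂ)) * Vᴴ) = 0 := by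
      ext i j
      rw [← lyapM_mulVec]
      simpa [hY] using congrFun hy (i, j)
    have hz : Vᴴ * Y * V = 0 := by
      ext i j
      have := lyap_diag (h := h) hV hV' Y i j
      rw [h0] at this
      simp only [Matrix.mul_zero, Matrix.zero_mul, Matrix.zero_apply] at this
      have hs : (Real.sin (h i + h j) : ℂ) ≠ 0 := ofReal_ne_zero.2
        (Real.sin_pos_of_pos_of_lt_pi (by linarith [(hh i).1, (hh j).1])
          (by linarith [(hh i).2, (hh j).2])).ne'
      exact (mul_eq_zero.1 this.symm).resolve_left (mul_ne_zero (mul_ne_zero two_ne_zero I_ne_zero) hs)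
    have : Y = 0 := by
      calc Y = (V * Vᴴ) * Y * (V * Vᴴ) := by rw [hV']; simp
        _ = V * (Vᴴ * Y * V) * Vᴴ := by simp [Matrix.mul_assoc]
        _ = 0 := by rw [hz]; simp
    funext p
    simpa [hY] using congrFun (congrFun this p.1) p.2
  have := key (y₁ - y₂) (by rw [Matrix.mulVec_sub, he, sub_self])
  exact sub_eq_zero.1 this

theorem Xop_eq {H : Matrix (Fin n) (Fin n) ℂ} (hH : GoodH H) (S : Matrix (Fin n) (Fin n) ℂ) :
    Ep H * Xop H S * Ep H - Em H * Xop H S * Em H = (2 * I) • S := by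
  ext i j
  rw [← lyapM_mulVec]
  have : (fun q : Fin n × Fin n => Xop H S q.1 q.2) = (lyapM H)⁻¹ *ᵥ fun q => 2 * I * S q.1 q.2 := by
    funext q; simp [Xop]
  rw [this, Matrix.mulVec_mulVec, Matrix.mul_nonsing_inv _ (lyapM_isUnit hH), Matrix.one_mulVec]
  simp

theorem Ep_mul_Em {H : Matrix (Fin n) (Fin n) ℂ} (hH : GoodH H) :
    Ep H * Em H = 1 ∧ Em H * Ep H = 1 := by
  obtain ⟨V, h, hV, hV', rfl, -⟩ := hH
  rw [Ep_conj hV hV', Em_conj hV hV', conj_mul_conj hV, conj_mul_conj hV]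
  simp [diagonal_mul_diagonal, ← Complex.exp_add, hV']

end basis

theorem dd_scalar (a b : ℝ) :
    expDD I a b * exp (-I * b) + exp (-I * a) * expDD I a b = 2 * I * (Real.sinc (a - b) : ℂ) := by
  unfold expDD
  rcases eq_or_ne a b with rfl | hab
  · have e : exp (I * a) * exp (-I * a) = 1 := by rw [← Complex.exp_add]; simp
    rw [if_pos rfl, sub_self, Real.sinc_zero]
    push_cast
    linear_combination (2 * I) * e
  · have hne : (a : ℂ) - b ≠ 0 := sub_ne_zero.2 (ofReal_injective.ne hab)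
    rw [if_neg (ofReal_injective.ne hab), Real.sinc_of_ne_zero (sub_ne_zero.2 hab)]
    push_cast
    rw [← mul_div_assoc (2 * I), ← exp_sub_exp]
    field_simp
    ring_nf
    simp only [← Complex.exp_add]
    ring_nf

/-- The inequality in the eigenbasis. -/
theorem pointwise_diag (h : Fin n → ℝ) (hh : ∀ i, h i ∈ Set.Ioo 0 (Real.pi / 2))
    (U U' : Matrix (Fin m) (Fin n) ℂ) (X : Matrix (Fin n) (Fin n) ℂ)
    (hX : ∀ i j, (Real.sin (h i + h j) : ℂ) * X i j = (Uᴴ * U) i j) :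
    Real.pi ^ 2 / 4 * ((Uᴴ * U * (Uᴴ * U) * (Uᴴ * U)).trace).re ≤
      ((U'ᴴ * U').trace).re - Real.pi / 4 *
        ((2 * ((U'ᴴ * U + Uᴴ * U') * Matrix.of fun i j => (Real.cos (h i + h j) : ℂ) * X i j).trace +
          I * (X * X * Matrix.of fun i j => (Real.pi / 2 : ℂ) * (Uᴴ * U) i j *
            (2 * I * (Real.sinc (h i - h j) : ℂ))).trace)).re := by
  set S := Uᴴ * U with hS
  set N := Matrix.of fun i j => (Real.cos (h i + h j) : ℂ) * X i j with hN
  have hSh : Sᴴ = S := by rw [hS, conjTranspose_mul, conjTranspose_conjTranspose]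
  have hsne : ∀ i j, (Real.sin (h i + h j) : ℂ) ≠ 0 := fun i j => ofReal_ne_zero.2
    (Real.sin_pos_of_pos_of_lt_pi (by linarith [(hh i).1, (hh j).1])
      (by linarith [(hh i).2, (hh j).2])).ne'
  have hXh : X.IsHermitian := by
    refine Matrix.IsHermitian.ext fun i j => ?_
    apply mul_left_cancel₀ (hsne i j)
    rw [hX, ← congrFun (congrFun hSh i) j, conjTranspose_apply, ← hX, StarMul.star_mul, Complex.star_def,
      conj_ofReal, add_comm (h j) (h i)]
    exact mul_comm _ _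
  have hNh : Nᴴ = N := by
    ext i j
    simp only [hN, conjTranspose_apply, Matrix.of_apply, StarMul.star_mul, Complex.star_def, conj_ofReal]
    rw [← hXh.apply i j, add_comm (h j) (h i)]
    exact mul_comm _ _
  have hsq : 0 ≤ (((U' - (Real.pi / 2 : ℂ) • (U * N))ᴴ * (U' - (Real.pi / 2 : ℂ) • (U * N))).trace).re := by
    rw [Matrix.trace]
    simp only [re_sum, Matrix.diag, Matrix.mul_apply, conjTranspose_apply, Complex.star_def]
    exact Finset.sum_nonneg fun i _ => Finset.sum_nonneg fun j _ => by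
      rw [← normSq_eq_conj_mul_self, ofReal_re]; exact normSq_nonneg _
  have ht : (((U'ᴴ * U + Uᴴ * U') * N).trace).re = 2 * ((U'ᴴ * (U * N)).trace).re := by
    rw [Matrix.add_mul, trace_add, add_re, Matrix.mul_assoc, Matrix.mul_assoc]
    have e : (Uᴴ * (U' * N)).trace = conj (U'ᴴ * (U * N)).trace := by
      rw [← Complex.star_def, ← trace_conjTranspose, conjTranspose_mul, conjTranspose_mul,
        conjTranspose_conjTranspose, hNh, Matrix.mul_assoc N, Matrix.trace_mul_comm N, Matrix.mul_assoc]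
    rw [e, conj_re]; ring
  have hexp : (((U' - (Real.pi / 2 : ℂ) • (U * N))ᴴ * (U' - (Real.pi / 2 : ℂ) • (U * N))).trace).re =
      ((U'ᴴ * U').trace).re - Real.pi * ((U'ᴴ * (U * N)).trace).re +
        Real.pi ^ 2 / 4 * ((S * N * N).trace).re := by
    have hc : star ((Real.pi : ℂ) / 2) = (Real.pi : ℂ) / 2 := by simp [Complex.star_def]
    have e1 : ((U * N)ᴴ * U').trace = conj (U'ᴴ * (U * N)).trace := by
      rw [← Complex.star_def, ← trace_conjTranspose, conjTranspose_mul U'ᴴ, conjTranspose_conjTranspose]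
    have e2 : ((U * N)ᴴ * (U * N)).trace = (S * N * N).trace := by
      rw [conjTranspose_mul, hNh, Matrix.mul_assoc, Matrix.trace_mul_comm, ← Matrix.mul_assoc Uᴴ, ← hS,
        Matrix.mul_assoc]
    simp only [conjTranspose_sub, conjTranspose_smul, hc, Matrix.sub_mul, Matrix.mul_sub,
      Matrix.smul_mul, Matrix.mul_smul, trace_sub, trace_smul, smul_eq_mul, e1, e2, sub_re]
    rw [show ((Real.pi : ℂ) / 2) = ((Real.pi / 2 : ℝ) : ℂ) by push_cast; ring]
    simp only [sub_re, re_ofReal_mul, conj_re]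
    ring
  have hφ : ∀ i, 2 * h i ∈ Set.Ioo 0 Real.pi := fun i =>
    ⟨by linarith [(hh i).1], by linarith [(hh i).2]⟩
  have hpos : ∀ w, 0 ≤ (form X w fun j k => Real.sin ((2 * h j + 2 * h k) / 2)).re := by
    intro w
    have e : (form X w fun j k => Real.sin ((2 * h j + 2 * h k) / 2)) =
        ∑ a, conj (∑ j, U a j * w j) * ∑ k, U a k * w k := by
      simp only [form, map_sum, map_mul, Finset.mul_sum, Finset.sum_mul]
      conv_rhs => enter [2, a]; rw [Finset.sum_comm]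
      conv_rhs => rw [Finset.sum_comm]
      refine Finset.sum_congr rfl fun j _ => ?_
      conv_rhs => rw [Finset.sum_comm]
      refine Finset.sum_congr rfl fun k _ => ?_
      rw [show (2 * h j + 2 * h k) / 2 = h j + h k by ring, mul_assoc, mul_comm (X j k), hX, hS,
        Matrix.mul_apply, Finset.mul_sum]
      exact Finset.sum_congr rfl fun a _ => by rw [conjTranspose_apply, Complex.star_def]; ring
    rw [e, re_sum]
    exact Finset.sum_nonneg fun a _ => by
      rw [← normSq_eq_conj_mul_self, ofReal_re]; exact normSq_nonneg _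
  have hcore := core_cubic hXh hφ hpos
  have hmain : ((S * S * S).trace).re + ((S * N * N).trace).re ≤
      -(1 / Real.pi) * (I * (X * X * Matrix.of fun i j => (Real.pi / 2 : ℂ) * S i j *
            (2 * I * (Real.sinc (h i - h j) : ℂ))).trace).re := by
    have hpi := Real.pi_pos.ne'
    have eA : I * (X * X * Matrix.of fun i j => (Real.pi / 2 : ℂ) * S i j *
        (2 * I * (Real.sinc (h i - h j) : ℂ))).trace =
        -(Real.pi : ℂ) * ∑ i, ∑ j, ∑ k, X i j * X j k * X k i *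
          ((Real.sin (h i + h j) * Real.sinc (h i - h j) : ℝ) : ℂ) := by
      simp only [Matrix.trace, Matrix.diag, Matrix.mul_apply, Matrix.of_apply, Finset.mul_sum,
        Finset.sum_mul, ← hX]
      rw [Finset.sum_comm]
      refine Finset.sum_congr rfl fun i _ => Finset.sum_congr rfl fun j _ =>
        Finset.sum_congr rfl fun k _ => ?_
      push_cast
      linear_combination (Complex.sin (↑(h i) + ↑(h j)) * X i j * (Real.sinc (h i - h j) : ℂ) *
        (Real.pi : ℂ) * X j k * X k i) * I_sq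
    have eB : (S * S * S).trace + (S * N * N).trace =
        ∑ i, ∑ j, ∑ k, X i j * X j k * X k i *
          ((Real.sin (h i + h j) * Real.cos (h i - h j) : ℝ) : ℂ) := by
      simp only [Matrix.trace, Matrix.diag, Matrix.mul_apply, Finset.sum_mul, hN, Matrix.of_apply,
        ← Finset.sum_add_distrib, ← hX]
      refine Finset.sum_congr rfl fun i _ => ?_
      rw [Finset.sum_comm]
      refine Finset.sum_congr rfl fun j _ => Finset.sum_congr rfl fun k _ => ?_
      rw [show h i - h j = (h k + h i) - (h j + h k) by ring, Real.cos_sub]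
      push_cast
      ring
    have eC : ∀ i j, LK (2 * h i) (2 * h j) =
        Real.sin (h i + h j) * Real.sinc (h i - h j) - Real.sin (h i + h j) * Real.cos (h i - h j) := by
      intro i j
      rw [LK, show (2 * h i + 2 * h j) / 2 = h i + h j by ring,
        show (2 * h i - 2 * h j) / 2 = h i - h j by ring,
        show 2 * h i = (h i + h j) + (h i - h j) by ring,
        show 2 * h j = (h i + h j) - (h i - h j) by ring]
      generalize h i + h j = a, h i - h j = b
      rw [Real.sin_add a b, Real.sin_sub a b]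
      ring
    simp only [eC, ofReal_sub, mul_sub, Finset.sum_sub_distrib, sub_re] at hcore
    rw [← add_re, eB, eA, ← ofReal_neg, re_ofReal_mul]
    field_simp
    linarith
  rw [hexp] at hsq
  rw [add_re, show (2 : ℂ) = ((2 : ℝ) : ℂ) by norm_num, re_ofReal_mul, ht]
  simp only [show ((2 : ℝ) : ℂ) = (2 : ℂ) by norm_num]
  generalize (I * (X * X * Matrix.of fun i j => (Real.pi / 2 : ℂ) * S i j *
            (2 * I * (Real.sinc (h i - h j) : ℂ))).trace).re = Q at hmain ⊢
  have h2 : Real.pi ^ 2 / 4 * (((S * S * S).trace).re + ((S * N * N).trace).re) ≤ -Real.pi / 4 * Q :=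
    (mul_le_mul_of_nonneg_left hmain (by positivity)).trans (le_of_eq (by field_simp))
  linarith

theorem trace_conj {V A : Matrix (Fin n) (Fin n) ℂ} (hV : Vᴴ * V = 1) :
    (V * A * Vᴴ).trace = A.trace := by
  rw [Matrix.trace_mul_comm, ← Matrix.mul_assoc, hV, Matrix.one_mul]

/-- The basis-free pointwise inequality. -/
theorem pointwise {H : Matrix (Fin n) (Fin n) ℂ} (hH : GoodH H) (U U' : Matrix (Fin m) (Fin n) ℂ) :
    Real.pi ^ 2 / 4 * ((Uᴴ * U * (Uᴴ * U) * (Uᴴ * U)).trace).re ≤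
      ((U'ᴴ * U').trace).re - Real.pi / 4 *
        ((2 * ((U'ᴴ * U + Uᴴ * U') * Nop H (Uᴴ * U)).trace +
          I * (Xop H (Uᴴ * U) * Xop H (Uᴴ * U) *
            (exzD I H ((Real.pi / 2 : ℂ) • (Uᴴ * U)) * Em H +
              Em H * exzD I H ((Real.pi / 2 : ℂ) • (Uᴴ * U)))).trace)).re := by
  have hXeq := Xop_eq hH (Uᴴ * U)
  obtain ⟨V, h, hV, hV', rfl, hh⟩ := hH
  have back : ∀ A : Matrix (Fin n) (Fin n) ℂ, A = V * (Vᴴ * A * V) * Vᴴ := fun A => by
    calc A = (V * Vᴴ) * A * (V * Vᴴ) := by rw [hV']; simp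
      _ = _ := by simp [Matrix.mul_assoc]
  set H := V * diagonal (fun i => (h i : ℂ)) * Vᴴ
  set U₁ := U * V with hU₁
  set U₁' := U' * V with hU₁'
  set X := Vᴴ * Xop H (Uᴴ * U) * V with hXdef
  have eS : Uᴴ * U = V * (U₁ᴴ * U₁) * Vᴴ := by
    conv_lhs => rw [back (Uᴴ * U)]
    simp only [hU₁, conjTranspose_mul, Matrix.mul_assoc]
  have eS' : U'ᴴ * U + Uᴴ * U' = V * (U₁'ᴴ * U₁ + U₁ᴴ * U₁') * Vᴴ := by
    conv_lhs => rw [back (U'ᴴ * U + Uᴴ * U')]
    simp only [hU₁, hU₁', conjTranspose_mul, Matrix.mul_assoc, Matrix.mul_add, Matrix.add_mul]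
  have hX : ∀ i j, (Real.sin (h i + h j) : ℂ) * X i j = (U₁ᴴ * U₁) i j := by
    intro i j
    have e := lyap_diag (h := h) hV hV' (Xop H (Uᴴ * U)) i j
    rw [hXeq, eS, Matrix.mul_smul, Matrix.smul_mul, uncj hV, Matrix.smul_apply, smul_eq_mul] at e
    refine mul_left_cancel₀ (mul_ne_zero two_ne_zero I_ne_zero) ?_
    rw [← mul_assoc, e, hXdef, eS]
  have eX : Xop H (Uᴴ * U) = V * X * Vᴴ := back _
  have eN : Nop H (Uᴴ * U) =
      V * (Matrix.of fun i j => (Real.cos (h i + h j) : ℂ) * X i j) * Vᴴ := by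
    rw [Nop, eX, Ep_conj hV hV', Em_conj hV hV', conj_mul_conj hV, conj_mul_conj hV, conj_mul_conj hV,
      conj_mul_conj hV, ← Matrix.add_mul, ← Matrix.mul_add, ← Matrix.smul_mul, ← Matrix.mul_smul]
    congr 2
    ext i j
    rw [Matrix.smul_apply, Matrix.add_apply, lyap_entry I h, lyap_entry (-I) h, ← add_mul,
      exp_add_exp, Matrix.of_apply, Complex.ofReal_cos, smul_eq_mul]
    ring
  have eM : exzD I H ((Real.pi / 2 : ℂ) • (Uᴴ * U)) * Em H +
      Em H * exzD I H ((Real.pi / 2 : ℂ) • (Uᴴ * U)) =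
      V * (Matrix.of fun i j => (Real.pi / 2 : ℂ) * (U₁ᴴ * U₁) i j *
        (2 * I * (Real.sinc (h i - h j) : ℂ))) * Vᴴ := by
    rw [eS, ← Matrix.smul_mul, ← Matrix.mul_smul, exzD_conj hV hV', Em_conj hV hV', conj_mul_conj hV,
      conj_mul_conj hV, ← Matrix.add_mul, ← Matrix.mul_add]
    congr 2
    ext i j
    rw [Matrix.add_apply, Matrix.mul_diagonal, Matrix.diagonal_mul, exzD_diagonal, Matrix.of_apply,
      Matrix.smul_apply, smul_eq_mul, ← dd_scalar]
    ring
  have key := pointwise_diag h hh U₁ U₁' X hX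
  rw [eN, eM, eS', eX, conj_mul_conj hV, conj_mul_conj hV, conj_mul_conj hV, trace_conj hV,
    trace_conj hV, eS, conj_mul_conj hV, conj_mul_conj hV, trace_conj hV]
  have eU : (U'ᴴ * U').trace = (U₁'ᴴ * U₁').trace := by
    rw [hU₁', conjTranspose_mul, Matrix.mul_assoc Vᴴ, Matrix.trace_mul_comm Vᴴ,
      ← Matrix.mul_assoc U'ᴴ, Matrix.mul_assoc (U'ᴴ * U'), hV', Matrix.mul_one]
  rw [eU]
  exact key

end Vale.Agent.LT
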