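import Mathlib

/-!
A positivity lemma for kernels `sin (τ (φ j + φ k) / 2)`, by the Phragmen-Lindelof principle on a
strip.
-/

namespace Vale.Agent.LT

open Complex Filter Set
open scoped ComplexConjugate

variable {n : ℕ}

/-- The Hermitian form with a real weight kernel. -/
noncomputable def form (X : Matrix (Fin n) (Fin n) ℂ) (w : Fin n → ℂ) (K : Fin n → Fin n → ℝ) :
    ℂ :=
  ∑ j, ∑ k, conj (w j) * w k * X j k * (K j k : ℂ)

theorem form_conj {X : Matrix (Fin n) (Fin n) ℂ} (hX : X.IsHermitian) (w : Fin n → ℂ)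
    (K : Fin n → Fin n → ℝ) : conj (form X w K) = form X w (fun j k => K k j) := by
  simp only [form, map_sum, map_mul, conj_conj, conj_ofReal]
  rw [Finset.sum_comm]
  refine Finset.sum_congr rfl fun j _ => Finset.sum_congr rfl fun k _ => ?_
  have h : conj (X k j) = X j k := by simpa using hX.apply j k
  rw [h]; ring

theorem form_im_eq_zero {X : Matrix (Fin n) (Fin n) ℂ} (hX : X.IsHermitian) (w : Fin n → ℂ)
    {K : Fin n → Fin n → ℝ} (hK : ∀ j k, K j k = K k j) : (form X w K).im = 0 := by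
  have h := form_conj hX w K
  rw [show (fun j k => K k j) = K from funext fun j => funext fun k => hK k j] at h
  exact conj_eq_iff_im.1 h

theorem form_re_symm {X : Matrix (Fin n) (Fin n) ℂ} (hX : X.IsHermitian) (w : Fin n → ℂ)
    (K : Fin n → Fin n → ℝ) :
    (form X w K).re = (form X w (fun j k => (K j k + K k j) / 2)).re := by
  have h := congrArg Complex.re (form_conj hX w K)
  rw [conj_re] at h
  have e : form X w (fun j k => (K j k + K k j) / 2) =
      (form X w K + form X w (fun j k => K k j)) / 2 := by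
    simp only [form, ← Finset.sum_add_distrib, Finset.sum_div]
    refine Finset.sum_congr rfl fun j _ => Finset.sum_congr rfl fun k _ => ?_
    push_cast; ring
  rw [e]; simp [← h]

theorem form_add (X : Matrix (Fin n) (Fin n) ℂ) (w : Fin n → ℂ) (K K' : Fin n → Fin n → ℝ) :
    form X w (fun j k => K j k + K' j k) = form X w K + form X w K' := by
  simp only [form, ← Finset.sum_add_distrib]
  refine Finset.sum_congr rfl fun j _ => Finset.sum_congr rfl fun k _ => ?_
  push_cast; ring

theorem form_smul (X : Matrix (Fin n) (Fin n) ℂ) (w : Fin n → ℂ) (K : Fin n → Fin n → ℝ) (r : ℝ) :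
    form X w (fun j k => r * K j k) = (r : ℂ) * form X w K := by
  simp only [form, Finset.mul_sum]
  refine Finset.sum_congr rfl fun j _ => Finset.sum_congr rfl fun k _ => ?_
  push_cast; ring

theorem form_diag_mul (X : Matrix (Fin n) (Fin n) ℂ) (w : Fin n → ℂ) (K : Fin n → Fin n → ℝ)
    (g : Fin n → ℝ) :
    form X (fun j => w j * (g j : ℂ)) K = form X w (fun j k => g j * g k * K j k) := by
  simp only [form, map_mul, conj_ofReal]
  refine Finset.sum_congr rfl fun j _ => Finset.sum_congr rfl fun k _ => ?_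
  push_cast; ring

/-- If `sin ((φ j + φ k) / 2)` weights `X` into a positive form, so does `sin (τ (φ j + φ k) / 2)`
for `τ ∈ [0, 1]`. -/
theorem strip_nonneg {X : Matrix (Fin n) (Fin n) ℂ} (hX : X.IsHermitian) {φ : Fin n → ℝ}
    (hφ : ∀ i, φ i ∈ Ioo 0 Real.pi)
    (hS : ∀ w, 0 ≤ (form X w fun j k => Real.sin ((φ j + φ k) / 2)).re)
    (v : Fin n → ℂ) {τ : ℝ} (h0 : 0 ≤ τ) (h1 : τ ≤ 1) :
    0 ≤ (form X v fun j k => Real.sin (τ * ((φ j + φ k) / 2))).re := by
  set G : ℂ → ℂ := fun s =>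
    ∑ j, ∑ k, conj (v j) * v k * X j k * exp (I * s * (((φ j + φ k) / 2 : ℝ) : ℂ))
  set f : ℂ → ℂ := fun s => exp (I * G s)
  have hG : ∀ a y : ℝ, G (a + y * I) =
      form X v (fun j k => Real.exp (-y * ((φ j + φ k) / 2)) * Real.cos (a * ((φ j + φ k) / 2))) +
      I * form X v (fun j k => Real.exp (-y * ((φ j + φ k) / 2)) *
        Real.sin (a * ((φ j + φ k) / 2))) := by
    intro a y
    simp only [G, form, Finset.mul_sum, ← Finset.sum_add_distrib]
    refine Finset.sum_congr rfl fun j _ => Finset.sum_congr rfl fun k _ => ?_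
    generalize (φ j + φ k) / 2 = m
    rw [show I * ((a : ℂ) + y * I) * (m : ℂ) = ((-y * m : ℝ) : ℂ) + ((a * m : ℝ) : ℂ) * I by
      push_cast; linear_combination (y : ℂ) * m * I_sq]
    rw [exp_add, exp_mul_I, ← ofReal_exp, ← ofReal_cos, ← ofReal_sin]
    push_cast; ring
  have him : ∀ a y : ℝ, (G (a + y * I)).im =
      (form X v (fun j k => Real.exp (-y * ((φ j + φ k) / 2)) *
        Real.sin (a * ((φ j + φ k) / 2)))).re := by
    intro a y
    rw [hG, add_im, form_im_eq_zero hX v (fun j k => by rw [add_comm (φ j)]), I_mul_im, zero_add]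
  have hnorm : ∀ s, ‖f s‖ = Real.exp (-(G s).im) := fun s => by
    simp [f, norm_exp]
  have hd : Differentiable ℂ f := by
    simp only [f, G]; fun_prop
  set M := ∑ i, φ i / (n + 1) with hM
  obtain ⟨c, hc, hc'⟩ : ∃ c, (∀ j k, (φ j + φ k) / 2 ≤ c) ∧ c < Real.pi := by
    rcases isEmpty_or_nonempty (Fin n) with hn | hn
    · exact ⟨0, fun j => isEmptyElim j, Real.pi_pos⟩
    · obtain ⟨i0, hi0⟩ := Finite.exists_max φ
      exact ⟨φ i0, fun j k => by linarith [hi0 j, hi0 k], (hφ i0).2⟩
  set B := ∑ j, ∑ k, ‖conj (v j) * v k * X j k‖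
  have hgrow : ∀ s : ℂ, ‖f s‖ ≤ Real.exp (B * Real.exp (c * |s.im|)) := by
    intro s
    refine (norm_exp_le_exp_norm _).trans (Real.exp_le_exp.2 ?_)
    rw [norm_mul, norm_I, one_mul]
    simp only [G, B, Finset.sum_mul]
    refine (norm_sum_le _ _).trans (Finset.sum_le_sum fun j _ =>
      (norm_sum_le _ _).trans (Finset.sum_le_sum fun k _ => ?_))
    rw [norm_mul _ (exp _), norm_exp]
    refine mul_le_mul_of_nonneg_left (Real.exp_le_exp.2 ?_) (norm_nonneg _)
    have hm0 : 0 ≤ (φ j + φ k) / 2 := by linarith [(hφ j).1, (hφ k).1]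
    simp only [mul_re, mul_im, I_re, I_im, ofReal_re, ofReal_im]
    calc _ = (-s.im) * ((φ j + φ k) / 2) := by ring
      _ ≤ |s.im| * ((φ j + φ k) / 2) := mul_le_mul_of_nonneg_right (neg_le_abs _) hm0
      _ ≤ |s.im| * c := mul_le_mul_of_nonneg_left (hc j k) (abs_nonneg _)
      _ = c * |s.im| := mul_comm _ _
  have hedge : ∀ z : ℂ, z.re = 0 ∨ z.re = 1 → ‖f z‖ ≤ 1 := by
    intro z hz
    rw [hnorm, Real.exp_le_one_iff, neg_nonpos, ← re_add_im z, him]
    rcases hz with h | h <;> rw [h]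
    · simp [form]
    · have e : ∀ j k, Real.exp (-z.im * ((φ j + φ k) / 2)) =
          Real.exp (-z.im * φ j / 2) * Real.exp (-z.im * φ k / 2) := fun j k => by
        rw [← Real.exp_add]; ring_nf
      simp only [e, one_mul]
      rw [← form_diag_mul X v (fun j k => Real.sin ((φ j + φ k) / 2))]
      exact hS _
  have := PhragmenLindelof.vertical_strip (f := f) (a := 0) (b := 1) (C := 1)
    hd.diffContOnCl ⟨c, by simpa using hc', B, Asymptotics.IsBigO.of_bound' (Eventually.of_forall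
      fun s => (hgrow s).trans (le_abs_self _))⟩
    (fun z hz => hedge z (Or.inl hz)) (fun z hz => hedge z (Or.inr hz))
    (z := (τ : ℂ)) (by simpa using h0) (by simpa using h1)
  rw [hnorm, Real.exp_le_one_iff, neg_nonpos] at this
  have e := him τ 0
  simp only [ofReal_zero, zero_mul, add_zero, neg_zero, Real.exp_zero, one_mul] at e
  rwa [e] at this

/-- The two-parameter family used by the calibration. -/
theorem sin_affine_nonneg {X : Matrix (Fin n) (Fin n) ℂ} (hX : X.IsHermitian) {φ : Fin n → ℝ}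
    (hφ : ∀ i, φ i ∈ Ioo 0 Real.pi)
    (hS : ∀ w, 0 ≤ (form X w fun j k => Real.sin ((φ j + φ k) / 2)).re)
    (v : Fin n → ℂ) {A τ : ℝ} (h0 : 0 < τ) (h1 : τ ≤ 1) (hA : 0 ≤ A) (hA1 : A ≤ (1 - τ) * Real.pi) :
    0 ≤ (form X v fun j k => Real.sin (A + τ * ((φ j + φ k) / 2))).re := by
  have e0 := strip_nonneg hX hφ hS v h0.le h1
  rcases eq_or_lt_of_le hA with h | hA0
  · simpa [← h] using e0
  set A1 := (1 - τ) * Real.pi with hA1'
  have hA1p : 0 < A1 := hA0.trans_le hA1
  have hA1l : A1 < Real.pi := by rw [hA1']; nlinarith [Real.pi_pos]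
  have hφ' : ∀ i, Real.pi - φ i ∈ Ioo 0 Real.pi := fun i =>
    ⟨by linarith [(hφ i).2], by linarith [(hφ i).1]⟩
  have hS' : ∀ w, 0 ≤ (form X w fun j k => Real.sin ((Real.pi - φ j + (Real.pi - φ k)) / 2)).re := by
    intro w
    have e : (fun j k => Real.sin ((Real.pi - φ j + (Real.pi - φ k)) / 2)) =
        fun j k => Real.sin ((φ j + φ k) / 2) := by
      funext j k
      rw [← Real.sin_pi_sub ((φ j + φ k) / 2)]; ring_nf
    rw [e]; exact hS w
  have e1 := strip_nonneg hX hφ' hS' v h0.le h1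
  have hK : (fun j k => Real.sin (A + τ * ((φ j + φ k) / 2))) = fun j k =>
      Real.sin (A1 - A) / Real.sin A1 * Real.sin (τ * ((φ j + φ k) / 2)) +
      Real.sin A / Real.sin A1 * Real.sin (τ * ((Real.pi - φ j + (Real.pi - φ k)) / 2)) := by
    funext j k
    have h : τ * ((Real.pi - φ j + (Real.pi - φ k)) / 2) =
        Real.pi - (A1 + τ * ((φ j + φ k) / 2)) := by rw [hA1']; ring
    rw [h, Real.sin_pi_sub]
    have := (Real.sin_pos_of_pos_of_lt_pi hA1p hA1l).ne'
    simp only [Real.sin_add, Real.sin_sub]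
    field_simp
    ring
  have hs := Real.sin_pos_of_pos_of_lt_pi hA1p hA1l
  rw [hK, form_add, form_smul, form_smul, add_re, re_ofReal_mul, re_ofReal_mul]
  exact add_nonneg
    (mul_nonneg (div_nonneg (Real.sin_nonneg_of_nonneg_of_le_pi (by linarith) (by linarith)) hs.le) e0)
    (mul_nonneg (div_nonneg (Real.sin_nonneg_of_nonneg_of_le_pi hA (by linarith)) hs.le) e1)

end Vale.Agent.LT
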